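import Crest.Agent.X212.Glb47.Defs
import Crest.Agent.X212.Prd34.Defs
import Crest.Agent.R096.Bd1_416

/-!
Row 212, layer T, package SMO (helper49), part 7: the seam `Prd34.PLHS → Glb47.HPL`
(a locally PL squeeze of three-space onto the open cube).
-/

set_option autoImplicit false
set_option linter.style.longLine false

open Set Metric Filter Topology

namespace Crest.Agent.X212.Smo49

open Crest.Agent.R096.Ce_537 Crest.Agent.R096.Bd_416

section PLAt
variable {E F G : Type*} [NormedAddCommGroup E] [NormedSpace ℝ E]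
  [NormedAddCommGroup F] [NormedSpace ℝ F] [NormedAddCommGroup G] [NormedSpace ℝ G]

/-- PL near a point -/
def PLAt (f : E → F) (x : E) : Prop := ∃ r > 0, PLOn f (ball x r)

theorem PLAt.of_nhds {f : E → F} {x : E} {s : Set E} (hs : s ∈ 𝓝 x) (h : PLOn f s) : PLAt f x := by
  obtain ⟨r, hr, h1⟩ := Metric.mem_nhds_iff.1 hs
  exact ⟨r, hr, h.mono h1⟩

theorem PLAt.continuousAt {f : E → F} {x : E} (h : PLAt f x) : ContinuousAt f x := by
  obtain ⟨r, hr, h1⟩ := h
  exact h1.1.continuousAt (ball_mem_nhds x hr)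

theorem PLAt.comp {f : E → F} {g : F → G} {x : E} (hg : PLAt g (f x)) (hf : PLAt f x) :
    PLAt (fun y => g (f y)) x := by
  have hc := hf.continuousAt
  obtain ⟨r, hr, h1⟩ := hf
  obtain ⟨s, hs, h2⟩ := hg
  exact PLAt.of_nhds (inter_mem (ball_mem_nhds x hr) (hc (ball_mem_nhds _ hs)))
    (h2.comp (h1.mono inter_subset_left) fun y hy => hy.2)

theorem PLAt.congr {f g : E → F} {x : E} (hf : PLAt f x) (e : g =ᶠ[𝓝 x] f) : PLAt g x := by
  obtain ⟨r, hr, h1⟩ := hf
  exact PLAt.of_nhds (inter_mem (ball_mem_nhds x hr) e)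
    ((h1.mono inter_subset_left).congr fun y hy => hy.2)

theorem PLAt.ev {f : E → F} {x : E} (hf : PLAt f x) : ∀ᶠ y in 𝓝 x, PLAt f y := by
  obtain ⟨r, hr, h1⟩ := hf
  filter_upwards [ball_mem_nhds x hr] with y hy using PLAt.of_nhds (isOpen_ball.mem_nhds hy) h1

theorem PLAt.sub {f g : E → F} {x : E} (hf : PLAt f x) (hg : PLAt g x) :
    PLAt (fun y => f y - g y) x := by
  obtain ⟨r, hr, h1⟩ := hf
  obtain ⟨s, hs, h2⟩ := hg
  exact PLAt.of_nhds (inter_mem (ball_mem_nhds x hr) (ball_mem_nhds x hs))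
    (pl_sub (h1.mono inter_subset_left) (h2.mono inter_subset_right))

theorem PLAt.pi {ι : Type*} [Fintype ι] {f : E → ι → ℝ} {x : E}
    (h : ∀ i, PLAt (fun y => f y i) x) : PLAt f x := by
  choose r hr h1 using h
  exact PLAt.of_nhds (s := ⋂ i, ball x (r i)) (iInter_mem.2 fun i => ball_mem_nhds x (hr i))
    (pl_pi fun i => (h1 i).mono (iInter_subset _ i))

theorem plAt_of_univ {f : E → F} (h : PLOn f univ) (x : E) : PLAt f x := PLAt.of_nhds univ_mem h

theorem str_iff {h : E → F} {Om : Set E} : R096.Str_696.LocPL h Om ↔ ∀ x ∈ Om, PLAt h x := by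
  constructor
  · intro hf x hx
    obtain ⟨r, hr, S, h1, h2⟩ := hf x hx
    exact ⟨r, hr, h1, S, h2⟩
  · intro hf x hx
    obtain ⟨r, hr, h1, S, h2⟩ := hf x hx
    exact ⟨r, hr, S, h1, h2⟩

end PLAt

/-- the PL interpolation of `2 ^ t` -/
noncomputable def ex (t : ℝ) : ℝ := (2 : ℝ) ^ ⌊t⌋ * (1 + t - ⌊t⌋)

theorem ex_eq (n : ℤ) {t : ℝ} (h1 : (n : ℝ) ≤ t) (h2 : t ≤ n + 1) : ex t = 2 ^ n * (1 + t - n) := by
  rcases h2.eq_or_lt with h | h
  · have h3 : ⌊t⌋ = n + 1 := by rw [h]; exact_mod_cast Int.floor_intCast (R := ℝ) (n + 1)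
    unfold ex
    rw [h3, zpow_add_one₀ two_ne_zero]
    push_cast
    rw [h]; ring
  · have h3 : ⌊t⌋ = n := Int.floor_eq_iff.2 ⟨h1, h⟩
    unfold ex
    rw [h3]

theorem ex_int (n : ℤ) : ex n = 2 ^ n := by rw [ex_eq n le_rfl (by linarith)]; ring

theorem pl_ex (n : ℤ) : PLOn ex (Icc (n : ℝ) (n + 1)) :=
  (pl_mul ((2 : ℝ) ^ n) (pl_sub_const (pl_add (plOn_const (1 : ℝ) _) (plOn_id _)) (n : ℝ))).congr
    fun _ ht => ex_eq n ht.1 ht.2

theorem plAt_ex (x : ℝ) : PLAt ex x := by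
  have h1 := Int.floor_le x
  have h2 := Int.lt_floor_add_one x
  refine PLAt.of_nhds ?_ ((pl_ex (⌊x⌋ - 1)).union (pl_ex ⌊x⌋) isClosed_Icc isClosed_Icc)
  refine mem_of_superset (Ioo_mem_nhds (a := (⌊x⌋ : ℝ) - 1) (b := (⌊x⌋ : ℝ) + 1) (by linarith) h2) ?_
  intro y hy
  push_cast
  rcases le_total y ⌊x⌋ with h | h
  · exact Or.inl ⟨hy.1.le, by linarith⟩
  · exact Or.inr ⟨h, hy.2.le⟩

theorem ex_strictMono : StrictMono ex := by
  intro s t hst
  have a1 := Int.floor_le s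
  have a2 := Int.lt_floor_add_one s
  have a3 := Int.floor_le t
  have p1 : (0 : ℝ) < 2 ^ ⌊s⌋ := by positivity
  have p2 : (0 : ℝ) < 2 ^ ⌊t⌋ := by positivity
  rcases (Int.floor_mono hst.le).eq_or_lt with h | h
  · unfold ex
    rw [← h]
    exact mul_lt_mul_of_pos_left (by linarith) p1
  · have h3 : (2 : ℝ) ^ (⌊s⌋ + 1) ≤ 2 ^ ⌊t⌋ := zpow_le_zpow_right₀ one_le_two h
    rw [zpow_add_one₀ two_ne_zero] at h3
    unfold ex
    nlinarith

theorem ex_pos (t : ℝ) : 0 < ex t := by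
  have a1 := Int.floor_le t
  unfold ex
  exact mul_pos (by positivity) (by linarith)

theorem ex_zero : ex 0 = 1 := by simpa using ex_int 0

/-- a locally PL homeomorphism of the line onto `(-1,1)` -/
noncomputable def sq (t : ℝ) : ℝ := ex (min t 0) - ex (min (-t) 0)

theorem plAt_sq (x : ℝ) : PLAt sq x :=
  ((plAt_ex _).comp (plAt_of_univ (pl_min (plOn_id _) (plOn_const 0 _)) x)).sub
    ((plAt_ex _).comp (plAt_of_univ (pl_min (pl_neg (plOn_id _)) (plOn_const 0 _)) x))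

theorem continuous_sq : Continuous sq :=
  continuous_iff_continuousAt.2 fun x => (plAt_sq x).continuousAt

theorem sq_strictMono : StrictMono sq := by
  intro s t hst
  have m1 : ex (min s 0) ≤ ex (min t 0) := ex_strictMono.monotone (min_le_min_right _ hst.le)
  have m2 : ex (min (-t) 0) ≤ ex (min (-s) 0) :=
    ex_strictMono.monotone (min_le_min_right _ (by linarith))
  unfold sq
  rcases lt_or_ge s 0 with h | h
  · have : ex (min s 0) < ex (min t 0) :=
      ex_strictMono (by rw [min_eq_left h.le]; exact lt_min hst h)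
    linarith
  · have : ex (min (-t) 0) < ex (min (-s) 0) :=
      ex_strictMono (by rw [min_eq_left (by linarith : -t ≤ 0)]; exact lt_min (by linarith) (by linarith))
    linarith

theorem sq_neg (t : ℝ) : sq (-t) = -sq t := by unfold sq; rw [neg_neg]; ring

theorem sq_zero : sq 0 = 0 := by unfold sq; simp

theorem abs_sq (t : ℝ) : |sq t| = sq |t| := by
  rcases le_total 0 t with h | h
  · rw [abs_of_nonneg h, abs_of_nonneg (sq_zero ▸ sq_strictMono.monotone h)]
  · rw [abs_of_nonpos h, abs_of_nonpos (sq_zero ▸ sq_strictMono.monotone h), sq_neg]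

theorem abs_sq_lt (t : ℝ) : |sq t| < 1 := by
  have a1 := ex_pos (min t 0)
  have a2 := ex_pos (min (-t) 0)
  have a3 : ex (min t 0) ≤ 1 := ex_zero ▸ ex_strictMono.monotone (min_le_right _ _)
  have a4 : ex (min (-t) 0) ≤ 1 := ex_zero ▸ ex_strictMono.monotone (min_le_right _ _)
  unfold sq
  rw [abs_lt]; constructor <;> linarith

theorem sq_nat (n : ℕ) : sq n = 1 - (1 / 2) ^ n := by
  have h : (0 : ℝ) ≤ n := n.cast_nonneg
  unfold sq
  rw [min_eq_right h, min_eq_left (by linarith), ex_zero]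
  have := ex_int (-(n : ℤ))
  push_cast at this
  rw [this]
  simp

theorem sq_surj {y : ℝ} (hy : |y| < 1) : ∃ t, sq t = y := by
  obtain ⟨n, hn⟩ := exists_pow_lt_of_lt_one (sub_pos.2 hy) (show (1 / 2 : ℝ) < 1 by norm_num)
  have h : (0 : ℝ) ≤ n := n.cast_nonneg
  obtain ⟨t, -, ht⟩ := intermediate_value_Icc (show -(n : ℝ) ≤ n by linarith) continuous_sq.continuousOn
    (show y ∈ Icc (sq (-(n : ℝ))) (sq n) by
      rw [sq_neg, sq_nat]
      constructor <;> linarith [le_abs_self y, neg_abs_le y])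
  exact ⟨t, ht⟩

theorem range_sq : range sq = Ioo (-1) 1 := by
  ext y
  rw [mem_Ioo, ← abs_lt]
  exact ⟨by rintro ⟨t, rfl⟩; exact abs_sq_lt t, sq_surj⟩

theorem sq_emb : IsOpenEmbedding sq :=
  ⟨sq_strictMono.isEmbedding_of_ordConnected (by rw [range_sq]; exact ordConnected_Ioo),
    by rw [range_sq]; exact isOpen_Ioo⟩

/-- the inverse of `sq` -/
noncomputable def sqi : ℝ → ℝ := (sq_emb.toOpenPartialHomeomorph sq).symm

theorem sqi_sq (t : ℝ) : sqi (sq t) = t := sq_emb.toOpenPartialHomeomorph_left_inv sq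

theorem sq_sqi {y : ℝ} (hy : |y| < 1) : sq (sqi y) = y := by
  obtain ⟨t, rfl⟩ := sq_surj hy
  rw [sqi_sq]

theorem plAt_sqi {y : ℝ} (hy : |y| < 1) : PLAt sqi y := by
  classical
  have hc : ContinuousOn sqi (Ioo (-1) 1) := by
    have := (sq_emb.toOpenPartialHomeomorph sq).continuousOn_symm
    rwa [IsOpenEmbedding.toOpenPartialHomeomorph_target, range_sq] at this
  have hn : Ioo (-1 : ℝ) 1 ∈ 𝓝 y := isOpen_Ioo.mem_nhds (abs_lt.1 hy)
  obtain ⟨r, hr, -, S, hS⟩ := plAt_sq (sqi y)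
  refine PLAt.of_nhds (inter_mem hn (hc.continuousAt hn (ball_mem_nhds _ hr))) ?_
  refine pl_sel S (g := fun a z => if a.linear 1 = 0 then sqi (a 0) else (z - a 0) / a.linear 1)
    (hc.mono inter_subset_left) (fun a _ => ?_) fun z hz => ?_
  · split_ifs
    · exact plOn_const _ _
    · exact pl_div (pl_sub_const (plOn_id _) _) _
  · obtain ⟨a, ha, e⟩ := hS _ hz.2
    rw [sq_sqi (abs_lt.2 hz.1)] at e
    have e2 : a (sqi z) = sqi z * a.linear 1 + a 0 := by
      have := a.map_vadd 0 (sqi z • (1 : ℝ))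
      rw [map_smul] at this
      simpa using this
    refine ⟨a, ha, ?_⟩
    split_ifs with h0
    · rw [h0, mul_zero, zero_add] at e2
      rw [← e2, ← e]
    · rw [eq_div_iff h0]; linarith

/-- the squeeze of three-space onto the open cube -/
noncomputable def sg (x : Fin 3 → ℝ) : Fin 3 → ℝ := fun i => sq (4 * x i)
/-- its inverse -/
noncomputable def sgi (y : Fin 3 → ℝ) : Fin 3 → ℝ := fun i => sqi (y i) / 4

theorem sgi_sg (x : Fin 3 → ℝ) : sgi (sg x) = x := by
  funext i; simp only [sgi, sg, sqi_sq]; ring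

theorem mem_ball_iff {y : Fin 3 → ℝ} : y ∈ ball (0 : Fin 3 → ℝ) 1 ↔ ∀ i, |y i| < 1 := by
  rw [mem_ball_zero_iff, pi_norm_lt_iff one_pos]; rfl

theorem sg_sgi {y : Fin 3 → ℝ} (hy : y ∈ ball (0 : Fin 3 → ℝ) 1) : sg (sgi y) = y := by
  funext i
  simp only [sgi, sg]
  rw [mul_div_cancel₀ _ (by norm_num), sq_sqi (mem_ball_iff.1 hy i)]

theorem sg_mem (x : Fin 3 → ℝ) : sg x ∈ ball (0 : Fin 3 → ℝ) 1 := mem_ball_iff.2 fun _ => abs_sq_lt _

theorem plAt_sg (x : Fin 3 → ℝ) : PLAt sg x := PLAt.pi fun i =>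
  (plAt_sq _).comp (plAt_of_univ (pl_mul 4 (pl_apply (plOn_id _) i)) x)

theorem plAt_sgi {y : Fin 3 → ℝ} (hy : y ∈ ball (0 : Fin 3 → ℝ) 1) : PLAt sgi y := PLAt.pi fun i =>
  (plAt_of_univ (pl_div (plOn_id _) 4) _).comp
    (PLAt.comp (f := fun z : Fin 3 → ℝ => z i) (plAt_sqi (mem_ball_iff.1 hy i))
      (plAt_of_univ (pl_apply (plOn_id _) i) y))

theorem continuous_sg : Continuous sg :=
  continuous_iff_continuousAt.2 fun x => (plAt_sg x).continuousAt

theorem sg_emb : IsOpenEmbedding sg := by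
  refine IsOpenEmbedding.of_continuous_injective_isOpenMap continuous_sg
    (fun x y h => by rw [← sgi_sg x, h, sgi_sg]) ?_
  refine isOpenMap_iff_nhds_le.2 fun x => fun s hs => ?_
  have h1 : s ∈ map sg (𝓝 (sgi (sg x))) := by rwa [sgi_sg]
  filter_upwards [(plAt_sgi (sg_mem x)).continuousAt h1, isOpen_ball.mem_nhds (sg_mem x)] with y h2 h3
  have h4 : sg (sgi y) ∈ s := h2
  rwa [sg_sgi h3] at h4

open Classical in
/-- conjugation of a self-map of three-space into the open cube -/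
noncomputable def cj (ψ : (Fin 3 → ℝ) → Fin 3 → ℝ) (y : Fin 3 → ℝ) : Fin 3 → ℝ :=
  if y ∈ ball (0 : Fin 3 → ℝ) 1 then sg (ψ (sgi y)) else y

theorem cj_in {ψ : (Fin 3 → ℝ) → Fin 3 → ℝ} {y : Fin 3 → ℝ} (hy : y ∈ ball (0 : Fin 3 → ℝ) 1) :
    cj ψ y = sg (ψ (sgi y)) := if_pos hy

theorem cj_off {ψ : (Fin 3 → ℝ) → Fin 3 → ℝ} {T : Set (Fin 3 → ℝ)} (h : ∀ x ∉ T, ψ x = x)
    {y : Fin 3 → ℝ} (hy : y ∉ sg '' T) : cj ψ y = y := by
  by_cases h1 : y ∈ ball (0 : Fin 3 → ℝ) 1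
  · rw [cj_in h1, h _ fun h2 => hy ⟨_, h2, sg_sgi h1⟩, sg_sgi h1]
  · exact if_neg h1

theorem cj_cj {ψ φ : (Fin 3 → ℝ) → Fin 3 → ℝ} (h : ∀ x, φ (ψ x) = x) (y : Fin 3 → ℝ) :
    cj φ (cj ψ y) = y := by
  by_cases h1 : y ∈ ball (0 : Fin 3 → ℝ) 1
  · rw [cj_in h1, cj_in (sg_mem _), sgi_sg, h, sg_sgi h1]
  · rw [show cj ψ y = y from if_neg h1]; exact if_neg h1

theorem continuous_cj {ψ : (Fin 3 → ℝ) → Fin 3 → ℝ} (hψ : Continuous ψ) {T : Set (Fin 3 → ℝ)}
    (hT : IsCompact T) (h : ∀ x ∉ T, ψ x = x) : Continuous (cj ψ) := by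
  refine continuous_iff_continuousAt.2 fun y => ?_
  by_cases h1 : y ∈ ball (0 : Fin 3 → ℝ) 1
  · refine ((continuous_sg.comp hψ).continuousAt.comp (plAt_sgi h1).continuousAt).congr ?_
    filter_upwards [isOpen_ball.mem_nhds h1] with z hz using (cj_in hz).symm
  · refine continuousAt_id.congr ?_
    have h2 : y ∉ sg '' T := by rintro ⟨x, -, rfl⟩; exact h1 (sg_mem x)
    filter_upwards [(hT.image continuous_sg).isClosed.isOpen_compl.mem_nhds h2] with z hz
      using (cj_off h hz).symm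

/-- **the seam** between the PL handle theorem of `Prd34` and the input of `Glb47` -/
theorem hpl_of_plhs (k : ℕ) (H : Prd34.PLHS (Finset.univ.filter fun i : Fin 3 => i.val < k)) :
    Glb47.HPL k := by
  set K : Finset (Fin 3) := Finset.univ.filter fun i : Fin 3 => i.val < k with hK
  have mK : ∀ i, i ∈ K ↔ i.val < k := fun i => by simp [hK]
  have s2 : sq 2 = 3 / 4 := by have := sq_nat 2; norm_num at this ⊢; exact this
  refine ⟨1, fun h hh ⟨V, hV, hCV, hpl⟩ => ?_⟩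
  have hpl' := str_iff.1 hpl
  obtain ⟨ψ, ⟨R, hR⟩, hout, hcore⟩ := H (fun x => h (sg x)) (hh.comp sg_emb) (by
    rintro x ⟨i, hi, hx⟩
    refine (hpl' _ (hCV ⟨(mem_ball_zero_iff.1 (sg_mem x)).le, i, (mK i).1 hi, ?_⟩)).comp (plAt_sg x)
    show 3 / 4 ≤ |sq (4 * x i)|
    rw [abs_sq, ← s2, abs_mul]
    refine sq_strictMono.monotone ?_
    rw [abs_of_pos (by norm_num : (0 : ℝ) < 4)]; linarith)
  set T : Set (Fin 3 → ℝ) := closedBall 0 R ∩ Prd34.slab K with hT
  have hTc : IsCompact T := (isCompact_closedBall _ _).inter_right (by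
    have : Prd34.slab K = ⋂ i ∈ K, {x : Fin 3 → ℝ | |x i| ≤ 1} := by ext x; simp [Prd34.slab]
    rw [this]
    exact isClosed_biInter fun i _ => isClosed_le (by fun_prop) continuous_const)
  have hψT : ∀ x ∉ T, ψ x = x := fun x hx => by
    by_cases h1 : x ∈ closedBall (0 : Fin 3 → ℝ) R
    · have h2 : x ∉ Prd34.slab K := fun h2 => hx ⟨h1, h2⟩
      simp only [Prd34.slab, mem_ofPred_eq, not_forall, not_le] at h2
      obtain ⟨i, hi, h2⟩ := h2
      exact hout x ⟨i, hi, h2.le⟩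
    · exact hR x (by rw [mem_closedBall_zero_iff, not_le] at h1; exact h1.le)
  have hψT' : ∀ x ∉ T, ψ.symm x = x := fun x hx => by
    rw [Homeomorph.symm_apply_eq, hψT x hx]
  let Ψ : (Fin 3 → ℝ) ≃ₜ (Fin 3 → ℝ) :=
    { toFun := cj ψ, invFun := cj ψ.symm, left_inv := cj_cj ψ.symm_apply_apply
      right_inv := cj_cj ψ.apply_symm_apply
      continuous_toFun := continuous_cj ψ.continuous hTc hψT
      continuous_invFun := continuous_cj ψ.symm.continuous hTc hψT' }
  refine ⟨Ψ, sg '' T, {y | PLAt (h ∘ Ψ) y}, hTc.image continuous_sg, ?_, fun y hy => cj_off hψT hy,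
    isOpen_iff_mem_nhds.2 fun y hy => PLAt.ev hy, fun y hy => ?_, str_iff.2 fun y hy => hy⟩
  · rintro _ ⟨x, -, rfl⟩ i -
    exact abs_sq_lt _
  · by_cases h1 : ∀ i ∈ K, |y i| ≤ sq 4
    · have h4 : sq 4 < 1 := (le_abs_self _).trans_lt (abs_sq_lt 4)
      have hb : y ∈ ball (0 : Fin 3 → ℝ) 1 := mem_ball_iff.2 fun i => by
        by_cases hi : i ∈ K
        · exact (h1 i hi).trans_lt h4
        · rw [hy.2 i (not_lt.1 fun h' => hi ((mK i).2 h'))]; simp
      have hc : sgi y ∈ Prd34.core K := by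
        refine ⟨fun i hi => ?_, fun i hi => ?_⟩
        · have h5 := h1 i hi
          rw [← sg_sgi hb] at h5
          have h6 : sq |4 * sgi y i| ≤ sq 4 := by rw [← abs_sq]; exact h5
          have h7 := sq_strictMono.le_iff_le.1 h6
          rw [abs_mul, abs_of_pos (by norm_num : (0 : ℝ) < 4)] at h7
          linarith
        · have h5 : y i = sq 0 := by rw [sq_zero]; exact hy.2 i (not_lt.1 fun h' => hi ((mK i).2 h'))
          simp only [sgi, h5, sqi_sq, zero_div]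
      have h8 : PLAt (fun x => h (sg (ψ x))) (sgi y) := hcore _ hc
      refine (h8.comp (plAt_sgi hb)).congr ?_
      filter_upwards [isOpen_ball.mem_nhds hb] with z hz
      exact congrArg h (cj_in hz)
    · simp only [not_forall, not_le] at h1
      obtain ⟨i, hi, h1⟩ := h1
      have h2 : y ∈ V := hCV ⟨hy.1, i, (mK i).1 hi, by
        rw [← s2]; exact (sq_strictMono.monotone (by norm_num)).trans h1.le⟩
      have h3 : y ∉ sg '' T := by
        rintro ⟨x, hx, rfl⟩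
        refine absurd h1 (not_lt.2 ?_)
        show |sq (4 * x i)| ≤ sq 4
        rw [abs_sq, abs_mul, abs_of_pos (by norm_num : (0 : ℝ) < 4)]
        exact sq_strictMono.monotone (by linarith [hx.2 i hi])
      refine (hpl' y h2).congr ?_
      filter_upwards [(hTc.image continuous_sg).isClosed.isOpen_compl.mem_nhds h3] with z hz
      exact congrArg h (cj_off hψT hz)

end Crest.Agent.X212.Smo49
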