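import Crest.Agent.X212.Smo49.Pert

/-!
Row 212, layer T, package SMO (helper49), part 5: relative mollification.
-/

set_option autoImplicit false
set_option linter.style.longLine false
set_option linter.unusedSectionVars false

open Set Metric Filter Topology MeasureTheory
open scoped NNReal ContDiff

namespace Crest.Agent.X212.Smo49

open Crest.Agent.R096.P5Spec_205 (HomeoOn MollAt)
open Crest.Agent.R096.Mo_119 (LBB Qt avg avgD kerM κE exists_data exists_dens exists_radius exists_seg)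

variable {E : Type*} [NormedAddCommGroup E] [InnerProductSpace ℝ E] [MeasureSpace E]
  [BorelSpace E] [FiniteDimensional ℝ E] [(volume : Measure E).IsAddHaarMeasure]

theorem fderiv_mem_of_ae {h : E → E} {z : E} (hz : ContDiffAt ℝ 1 h z) {B : Set E} (hB : B ∈ 𝓝 z)
    {K : Set (E →L[ℝ] E)} (hK : IsClosed K)
    (hae : ∀ᵐ y ∂(volume : Measure E), y ∈ B → fderiv ℝ h y ∈ K) : fderiv ℝ h z ∈ K := by
  by_contra hn
  have h1 : (fderiv ℝ h) ⁻¹' Kᶜ ∈ 𝓝 z :=
    hz.continuousAt_fderiv one_ne_zero (hK.isOpen_compl.mem_nhds hn)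
  have h2 : volume (B ∩ (fderiv ℝ h) ⁻¹' Kᶜ) = 0 := by
    refine measure_eq_zero_iff_ae_notMem.2 ?_
    filter_upwards [hae] with y hy hy' using hy'.2 (hy hy'.1)
  exact (Measure.measure_pos_of_mem_nhds volume (inter_mem hB h1)).ne' h2

open Classical in
theorem rm_pos {h : E → E} {Om La O S : Set E} (hLa : IsOpen La) (hh : HomeoOn h Om La)
    (hO : IsOpen O) (hOO : O ⊆ Om) (hm : ∀ x ∈ O, MollAt h x) {χ : E → ℝ} (hχ : ContDiff ℝ ∞ χ)
    (hχ01 : ∀ x, χ x ∈ Icc (0 : ℝ) 1) {M : ℝ} (hM0 : 0 ≤ M) (hM : ∀ x, ‖fderiv ℝ χ x‖ ≤ M)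
    (hS : IsOpen S) (hhS : ContDiffOn ℝ ∞ h S) (hcov : ∀ x ∈ O, x ∈ S ∨ χ =ᶠ[𝓝 x] fun _ => 1) :
    ∃ g : E → E, HomeoOn g Om La ∧ ContDiffOn ℝ ∞ g O ∧ (∀ x ∈ O, 0 < (fderiv ℝ g x).det) ∧
      (∀ x ∉ O, g x = h x) ∧ ∀ x, χ x = 0 → g x = h x := by
  have hcE : CompleteSpace E := FiniteDimensional.complete ℝ E
  have hΛ : IsOpen (h '' O) := isOpen_image hLa hh hO hOO
  have hhO := restrict hh hOO
  obtain ⟨ρ, hρ⟩ := exists_dens (E := E) volume
  obtain ⟨R, s, L, hR, hs, hR1, hLR, hQ, hsR⟩ := exists_data (μ := volume) hO hΛ hm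
    hhO.bij.mapsTo hhO.sep
  obtain ⟨β, βc, β0, β1, βL⟩ := exists_beta hΛ
  have hδ : LBB O fun x => β (h x) := LBB.of_continuousOn hO (βc.comp_continuousOn hhO.cont)
    fun x hx => β0 _ (mem_image_of_mem h hx)
  have hκ : (1:ℝ) ≤ κE E := by
    have : (1 : ℝ≥0) ≤ κE E := by unfold κE; exact le_add_self
    exact_mod_cast this
  have hκ0 : (0:ℝ) < κE E := by linarith
  set τ : E → ℝ := fun x => min (R x * (1/4)) (min (β (h x)) (s x * (1/4))) with hτ
  have hτL : LBB O τ :=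
    (hR.mul_mul (LBB.const (by norm_num))).inf_min (hδ.inf_min (hs.mul_mul (LBB.const (by norm_num))))
  set c : E → ℝ := fun x => ((κE E : ℝ)⁻¹ * (M + 1)⁻¹) * (R x * τ x) with hc
  have hcL : LBB O c := (LBB.const (by positivity)).mul_mul (hR.mul_mul hτL)
  obtain ⟨b, hb, hbc⟩ := hcL.transport hO hR1 (fun x hx => hR.pos hx) (fun x hx => (hQ x hx).1)
  obtain ⟨η, hη, -, hη0, hηb, hηd, -⟩ := exists_radius hO hb
  set a := avg (kerM volume ρ) h η with ha
  set g : E → E := fun z => h z + χ z • (a z - h z) with hg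
  have hk := hρ.ker
  have hRpos : ∀ x ∈ O, 0 < R x := fun x hx => hR.pos hx
  have hτpos : ∀ x ∈ O, 0 < τ x := fun x hx => hτL.pos hx
  have hτR : ∀ x, τ x ≤ R x * (1/4) := fun x => min_le_left _ _
  have hτδ : ∀ x, τ x ≤ β (h x) := fun x => (min_le_right _ _).trans (min_le_left _ _)
  have hτs : ∀ x, τ x ≤ s x * (1/4) := fun x => (min_le_right _ _).trans (min_le_right _ _)
  have hcκ : ∀ x ∈ O, κE E * L x * c x = τ x / (M + 1) := fun x hx => by
    have := (hRpos x hx).ne'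
    simp only [hc, hLR x hx]
    field_simp
  have hτM : ∀ x ∈ O, τ x / (M + 1) ≤ τ x := fun x hx =>
    div_le_self (hτpos x hx).le (by linarith)
  have hcR : ∀ x ∈ O, c x ≤ R x * (1/4) := fun x hx => by
    have h1 := hRpos x hx
    have h2 := hτpos x hx
    have h3 : (κE E : ℝ)⁻¹ ≤ 1 := inv_le_one_of_one_le₀ hκ
    have h4 : (M + 1)⁻¹ ≤ 1 := inv_le_one_of_one_le₀ (by linarith)
    calc c x = ((κE E : ℝ)⁻¹ * (M + 1)⁻¹) * (R x * τ x) := rfl
      _ ≤ (1 * 1) * (R x * τ x) := by gcongr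
      _ ≤ (1 * 1) * (1 * τ x) := by have := hR1 x hx; gcongr
      _ ≤ R x * (1/4) := by have := hτR x; linarith
  have hηc : ∀ x ∈ O, ∀ z ∈ ball x (R x / 2), η z ≤ c x ∧ ‖fderiv ℝ η z‖ ≤ c x ∧ z ∈ O := by
    intro x hx z hz
    have hzΩ : z ∈ O := (hQ x hx).1 (ball_subset_ball (by have := hRpos x hx; linarith) hz)
    have h1 := hbc x hx z hzΩ hz
    exact ⟨(hηb z hzΩ).trans h1, (hηd z hzΩ).trans h1, hzΩ⟩
  have hin : ∀ x ∈ O, ∀ z ∈ ball x (R x / 2), ‖z - x‖ + η z < R x := by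
    intro x hx z hz
    have h1 := (hηc x hx z hz).1
    have h2 := hcR x hx
    have h3 := hRpos x hx
    rw [mem_ball, dist_eq_norm] at hz
    linarith
  have hself : ∀ x ∈ O, x ∈ ball x (R x / 2) := fun x hx =>
    mem_ball_self (by have := hRpos x hx; positivity)
  have hasm : ∀ x ∈ O, ContDiffAt ℝ ∞ a x := fun x hx =>
    hρ.contDiffAt_avg_loc (hQ x hx).2.2.1 hη (hη0 x hx) (hin x hx x (hself x hx))
  have hga : ∀ z, (χ =ᶠ[𝓝 z] fun _ => 1) → g =ᶠ[𝓝 z] a := fun z hz => by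
    filter_upwards [hz] with y hy
    simp only [hg, hy, one_smul]; abel
  have hcd : ∀ x ∈ O, ContDiffAt ℝ ∞ g x := fun x hx => by
    rcases hcov x hx with h1 | h1
    · have h2 := hhS.contDiffAt (hS.mem_nhds h1)
      exact h2.add (hχ.contDiffAt.smul ((hasm x hx).sub h2))
    · exact (hasm x hx).congr_of_eventuallyEq (hga x h1)
  have hA0 : ∀ x ∈ O, ∀ z ∈ ball x (R x / 2), ‖a z - h z‖ ≤ τ x / (M + 1) := fun x hx z hz => by
    have h1 := hk.norm_avg_sub_le_loc (hQ x hx).2.2.1 (hη0 z (hηc x hx z hz).2.2) (hin x hx z hz)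
    refine h1.trans ?_
    rw [← hcκ x hx]
    have := (hηc x hx z hz).1
    gcongr
  have hC0 : ∀ x ∈ O, ‖g x - h x‖ ≤ τ x := fun x hx => by
    have e : g x - h x = χ x • (a x - h x) := by simp only [hg]; abel
    rw [e, norm_smul, Real.norm_of_nonneg (hχ01 x).1]
    exact (mul_le_of_le_one_left (norm_nonneg _) (hχ01 x).2).trans
      ((hA0 x hx x (hself x hx)).trans (hτM x hx))
  have hder : ∀ x ∈ O, ∃ K' : Set (E →L[ℝ] E), Convex ℝ K' ∧ IsClosed K' ∧
      (∀ B ∈ K', 0 < B.det ∧ ∀ v, R x * ‖v‖ ≤ ‖B v‖) ∧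
      ∀ z ∈ ball x (R x / 2), fderiv ℝ g z ∈ K' := by
    intro x hx
    obtain ⟨h1, h2, h3, K, hK, hKc, hae, hB⟩ := hQ x hx
    refine ⟨cthickening (R x) K, hK.cthickening _, isClosed_cthickening, hB, fun z hz => ?_⟩
    have hzO := (hηc x hx z hz).2.2
    have hmem := hk.avgD_mem_loc h3 hK hKc hae (hη0 z hzO) (hin x hx z hz)
    have h4 : ‖fderiv ℝ a z - avgD (kerM volume ρ) h (η z) z‖ ≤ τ x := by
      refine (hk.fderiv_avg_loc h3 hη (hη0 z hzO) (hin x hx z hz)).trans ?_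
      have h5 := (hηc x hx z hz).2.1
      calc κE E * L x * ‖fderiv ℝ η z‖ ≤ κE E * L x * c x := by gcongr
        _ = τ x / (M + 1) := hcκ x hx
        _ ≤ τ x := hτM x hx
    have h6 := hτR x
    have h7 := hRpos x hx
    rcases hcov z hzO with h8 | h8
    · have h9 := hhS.contDiffAt (hS.mem_nhds h8)
      have hzb : z ∈ ball x (R x) := ball_subset_ball (by linarith) hz
      have hDh : fderiv ℝ h z ∈ K :=
        fderiv_mem_of_ae (h9.of_le (by simp)) (isOpen_ball.mem_nhds hzb) hKc hae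
      have d1 := (h9.differentiableAt (by simp)).hasFDerivAt
      have d2 := ((hasm z hzO).differentiableAt (by simp)).hasFDerivAt
      have d3 := ((hχ.differentiable (by simp)) z).hasFDerivAt
      have d4 : HasFDerivAt g (fderiv ℝ h z + (χ z • (fderiv ℝ a z - fderiv ℝ h z) +
          (fderiv ℝ χ z).smulRight (a z - h z))) z := d1.add (d3.smul (d2.sub d1))
      have hmem2 : (1 - χ z) • fderiv ℝ h z + χ z • avgD (kerM volume ρ) h (η z) z ∈ K :=
        hK hDh hmem (by linarith [(hχ01 z).2]) (hχ01 z).1 (by ring)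
      refine mem_cthickening_of_dist_le _ _ _ _ hmem2 ?_
      rw [dist_eq_norm, d4.fderiv]
      have e : fderiv ℝ h z + (χ z • (fderiv ℝ a z - fderiv ℝ h z) +
          (fderiv ℝ χ z).smulRight (a z - h z)) -
          ((1 - χ z) • fderiv ℝ h z + χ z • avgD (kerM volume ρ) h (η z) z) =
          χ z • (fderiv ℝ a z - avgD (kerM volume ρ) h (η z) z) +
          (fderiv ℝ χ z).smulRight (a z - h z) := by
        rw [smul_sub, smul_sub, sub_smul, one_smul]; abel
      rw [e]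
      refine (norm_add_le _ _).trans ?_
      rw [norm_smul, Real.norm_of_nonneg (hχ01 z).1, ContinuousLinearMap.norm_smulRight_apply]
      have b1 : χ z * ‖fderiv ℝ a z - avgD (kerM volume ρ) h (η z) z‖ ≤ τ x :=
        (mul_le_of_le_one_left (norm_nonneg _) (hχ01 z).2).trans h4
      have b2 : ‖fderiv ℝ χ z‖ * ‖a z - h z‖ ≤ (M + 1) * (τ x / (M + 1)) :=
        mul_le_mul ((hM z).trans (by linarith)) (hA0 x hx z hz) (norm_nonneg _) (by linarith)
      have b3 : (M + 1) * (τ x / (M + 1)) = τ x := by field_simp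
      linarith
    · refine mem_cthickening_of_dist_le _ _ _ _ hmem ?_
      rw [dist_eq_norm, (hga z h8).fderiv_eq]
      linarith
  have hdet : ∀ x ∈ O, 0 < (fderiv ℝ g x).det := fun x hx => by
    obtain ⟨K', -, -, h1, h2⟩ := hder x hx
    exact (h1 _ (h2 x (hself x hx))).1
  have hloc : ∀ x ∈ O, ∀ y ∈ ball x (R x / 2), g x = g y → x = y := by
    intro x hx y hy he
    obtain ⟨K', hc1, hc2, h1, h2⟩ := hder x hx
    obtain ⟨A, hA, hAe⟩ := exists_seg (convex_ball x (R x / 2)) hc1 hc2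
      (fun z hz => (hcd z (hηc x hx z hz).2.2).of_le (by norm_cast)) h2 (hself x hx) hy
    have h3 := (h1 A hA).2 (x - y)
    rw [← hAe, he, sub_self, norm_zero] at h3
    have h4 := hRpos x hx
    have h5 : ‖x - y‖ ≤ 0 := by
      by_contra hcon
      push Not at hcon
      nlinarith
    exact sub_eq_zero.1 (norm_le_zero_iff.1 h5)
  have hinj1 : ∀ x ∈ O, ∀ y ∈ O, τ y ≤ τ x → g x = g y → x = y := by
    intro x hx y hy hle he
    refine hloc x hx y ?_ he
    refine hsR x hx y hy ?_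
    rw [dist_eq_norm]
    have h1 := hC0 x hx
    have h2 := hC0 y hy
    have h3 : h y - h x = (g x - h x) - (g y - h y) := by rw [he]; abel
    rw [h3]
    have h4 := hτs x
    have h5 : 0 < s x := hs.pos hx
    calc ‖(g x - h x) - (g y - h y)‖ ≤ ‖g x - h x‖ + ‖g y - h y‖ := norm_sub_le _ _
      _ < s x := by linarith
  have hinj : InjOn g O := by
    intro x hx y hy he
    rcases le_total (τ y) (τ x) with h | h
    · exact hinj1 x hx y hy h he
    · exact (hinj1 y hy x hx h he.symm).symm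
  have hclose : ∀ x ∈ O, ∀ y ∉ h '' O, ‖g x - h x‖ ≤ ‖h x - y‖ / 2 := fun x hx y hy =>
    (hC0 x hx).trans ((hτδ x).trans (βL _ y hy))
  have hgO : HomeoOn g O (h '' O) := by
    refine homeo_of_close hO hΛ hhO (fun x hx => (hcd x hx).continuousAt.continuousWithinAt) hinj
      (fun x hx => ?_) (fun x hx => (hC0 x hx).trans ((hτδ x).trans (β1 _))) hclose
    have h1 : HasStrictFDerivAt g (((fderiv ℝ g x).toContinuousLinearEquivOfDetNeZero
        (hdet x hx).ne' : E ≃L[ℝ] E) : E →L[ℝ] E) x := by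
      have := (hcd x hx).hasStrictFDerivAt (by simp)
      simpa using this
    exact h1.map_nhds_eq_of_equiv.ge
  have hev : ∀ x ∈ O, O.piecewise g h =ᶠ[𝓝 x] g := fun x hx => by
    filter_upwards [hO.mem_nhds hx] with y hy using piecewise_eq_of_mem _ _ _ hy
  refine ⟨O.piecewise g h, homeo_glue hLa hh hO hOO hgO hclose, fun x hx =>
    ((hcd x hx).congr_of_eventuallyEq (hev x hx)).contDiffWithinAt, fun x hx => ?_,
    fun x hx => piecewise_eq_of_notMem _ _ _ hx, fun x hx => ?_⟩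
  · rw [(hev x hx).fderiv_eq]; exact hdet x hx
  · by_cases hxO : x ∈ O
    · rw [piecewise_eq_of_mem _ _ _ hxO]
      simp only [hg, hx, zero_smul, add_zero]
    · exact piecewise_eq_of_notMem _ _ _ hxO

/-- **relative mollification**, any orientation: `h` is in the convex class on `O` and smooth on
`O \ Q`, `Q` compact in the open set `W`. -/
theorem rm (hfin : Module.finrank ℝ E = 3) {h : E → E} {Om La O Q W : Set E} (hLa : IsOpen La)
    (hh : HomeoOn h Om La) (hO : IsOpen O) (hOO : O ⊆ Om) (hm : ∀ x ∈ O, SMoll h x)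
    (hQ : IsCompact Q) (hW : IsOpen W) (hQW : Q ⊆ W) (hs : ContDiffOn ℝ ∞ h (O \ Q)) :
    ∃ (g : E → E) (K : Set E), HomeoOn g Om La ∧ SmOn g O ∧ IsCompact K ∧ K ⊆ W ∧
      (∀ x ∉ O, g x = h x) ∧ ∀ x ∉ K, g x = h x := by
  obtain ⟨χ, K, χs, hK, hKW, χ0, χ1, χ01⟩ := exists_bump hQ hW hQW
  have χsupp : HasCompactSupport χ := HasCompactSupport.intro hK χ0
  obtain ⟨L, hL⟩ := χs.lipschitzWith_of_hasCompactSupport χsupp (by simp)
  have hM : ∀ x, ‖fderiv ℝ χ x‖ ≤ L := fun x => norm_fderiv_le_of_lipschitz ℝ hL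
  have hχ1 : ∀ x ∈ Q, χ =ᶠ[𝓝 x] fun _ => 1 := fun x hx => χ1.filter_mono (nhds_le_nhdsSet hx)
  set O1 : Set E := O ∩ {x | MollAt h x} with hO1
  set O2 : Set E := O ∩ {x | MollAt (fun y => -h y) x} with hO2
  have o1 : IsOpen O1 := hO.inter (isOpen_iff_mem_nhds.2 fun x hx => moll_ev hx)
  have o2 : IsOpen O2 := hO.inter (isOpen_iff_mem_nhds.2 fun x hx => moll_ev hx)
  have hdisj : ∀ x ∈ O1, x ∉ O2 := fun x h1 h2 => moll_not_both hfin h1.2 h2.2
  obtain ⟨g, g1, g2, g3, g4, g5⟩ := rm_pos hLa hh o1 (inter_subset_left.trans hOO)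
    (fun x hx => hx.2) χs χ01 L.2 hM (hO.sdiff hQ.isClosed) hs fun x hx => by
      by_cases hxQ : x ∈ Q
      · exact Or.inr (hχ1 x hxQ)
      · exact Or.inl ⟨hx.1, hxQ⟩
  have e2 : ∀ x ∈ O2, g x = h x := fun x hx => g4 x fun h' => hdisj x h' hx
  obtain ⟨f, f1, f2, f3, f4, f5⟩ := rm_pos (S := O2 \ Q) hLa.neg (homeo_neg g1) o2
    (inter_subset_left.trans hOO) (fun x hx => moll_congr hx.2 (by
      filter_upwards [o2.mem_nhds hx] with y hy
      rw [e2 y hy])) χs χ01 L.2 hM (o2.sdiff hQ.isClosed)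
    (((hs.mono fun x hx => ⟨hx.1.1, hx.2⟩).congr fun x hx => e2 x hx.1).neg) fun x hx => by
      by_cases hxQ : x ∈ Q
      · exact Or.inr (hχ1 x hxQ)
      · exact Or.inl ⟨hx, hxQ⟩
  have e1 : ∀ x ∈ O1, (fun x => -f x) =ᶠ[𝓝 x] g := fun x hx => by
    filter_upwards [o1.mem_nhds hx] with y hy
    rw [f4 y (hdisj y hy), neg_neg]
  refine ⟨fun x => -f x, K, homeo_neg' f1, ⟨fun x hx => ?_, fun x hx => ?_⟩, hK, hKW,
    fun x hx => ?_, fun x hx => ?_⟩
  · rcases hm x hx with h1 | h1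
    · exact ((g2.contDiffAt (o1.mem_nhds ⟨hx, h1⟩)).congr_of_eventuallyEq
        (e1 x ⟨hx, h1⟩)).contDiffWithinAt
    · exact (f2.contDiffAt (o2.mem_nhds ⟨hx, h1⟩)).neg.contDiffWithinAt
  · rcases hm x hx with h1 | h1
    · rw [(e1 x ⟨hx, h1⟩).fderiv_eq]; exact (g3 x ⟨hx, h1⟩).ne'
    · rw [fderiv_fun_neg, det_neg hfin, neg_ne_zero]; exact (f3 x ⟨hx, h1⟩).ne'
  · show -f x = h x
    rw [f4 x fun h' => hx h'.1, neg_neg, g4 x fun h' => hx h'.1]
  · show -f x = h x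
    rw [f5 x (χ0 x hx), neg_neg, g5 x (χ0 x hx)]

end Crest.Agent.X212.Smo49
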