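import Crest.Agent.X212.Smo49.Stage
import Crest.Agent.X212.Smo49.Rm
import Crest.Agent.R096.Ed13_276
import Crest.Agent.R096.Rd6_695
import Crest.Agent.R096.BelF_205

/-!
Row 212, layer T, package SMO (helper49), part 6: smooth handle straightening from piecewise affine
handle straightening.
-/

set_option autoImplicit false
set_option linter.style.longLine false
set_option linter.unusedSectionVars false

open Set Metric Filter Topology MeasureTheory
open scoped NNReal ContDiff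

namespace Crest.Agent.X212.Smo49

open Crest.Agent.R096.P5Spec_205 (HomeoOn MollAt EdgeB Core)
open Crest.Agent.R096.Str_696 (LocPL)

section
variable {E : Type*} [NormedAddCommGroup E] [NormedSpace ℝ E]

/-- Piecewise affine straightening of `h` near `D`, supported in `W`, for every homeomorphism
`Om → La` which is piecewise affine near `C`. -/
def HPL (Om La W C D : Set E) : Prop :=
  ∀ h1 : E → E, HomeoOn h1 Om La → (∃ V, IsOpen V ∧ C ⊆ V ∧ LocPL h1 V) →
    ∃ h2 : E → E, HomeoOn h2 Om La ∧ (∃ K, IsCompact K ∧ K ⊆ W ∧ ∀ x ∈ Om \ K, h2 x = h1 x) ∧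
      ∃ P, IsOpen P ∧ D ⊆ P ∧ P ⊆ Om ∧ LocPL h2 P
end

variable {E : Type*} [NormedAddCommGroup E] [InnerProductSpace ℝ E] [MeasureSpace E]
  [BorelSpace E] [FiniteDimensional ℝ E] [(volume : Measure E).IsAddHaarMeasure]

theorem wrap_gen (hfin : Module.finrank ℝ E = 3) (hB : EdgeB E) (hCo : Core E) {h : E → E}
    {Om La U W C D : Set E} (hOm : IsOpen Om) (hLa : IsOpen La) (hU : IsOpen U) (hW : IsOpen W)
    (hUO : U ⊆ Om) (hC : IsCompact C) (hCU : C ⊆ U) (hD : IsCompact D) (hDW : D ⊆ W ∪ U)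
    (hh : HomeoOn h Om La) (hs : SmOn h U) (H : HPL Om La W C D) :
    ∃ h' : E → E, HomeoOn h' Om La ∧
      (∃ K, IsCompact K ∧ K ⊆ W ∪ U ∧ ∀ x ∈ Om \ K, h' x = h x) ∧
      ∃ O, IsOpen O ∧ D ∪ (U \ W) ⊆ O ∧ O ⊆ Om ∧ SmOn h' O := by
  obtain ⟨h1, K1, V, a1, a2, a3, a4, a5, a6, a7, a8⟩ := plize hfin hOm hLa hh hU hUO hs hC hCU
  obtain ⟨h2, b1, ⟨K, b2, b3, b4⟩, P, b5, b6, b7, b8⟩ := H h1 a1 ⟨V, a6, a7, a8⟩
  obtain ⟨L, hL, hDL, hLP⟩ := exists_compact_between hD (b5.inter (hW.union hU))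
    (subset_inter b6 hDW)
  have hM : IsOpen (U \ K) := hU.sdiff b2.isClosed
  have hM2 : ∀ x ∈ U \ K, SMoll h2 x := fun x hx => (a5 x hx.1).congr (by
    filter_upwards [hM.mem_nhds hx] with y hy using b4 y ⟨hUO hy.1, hy.2⟩)
  have hT : IsCompact (L \ W) := hL.diff hW
  have hTM : L \ W ⊆ U \ K := fun x hx =>
    ⟨((hLP hx.1).2).resolve_left hx.2, fun h' => hx.2 (b3 h')⟩
  obtain ⟨N, hN, hTN, hNM⟩ := exists_compact_between hT hM hTM
  have hLO : L ⊆ Om := fun x hx => b7 (hLP hx).1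
  obtain ⟨h3, c1, c2, c3, c4⟩ := stage hfin hB hCo hLa b1 (P := interior L) isOpen_interior
    (interior_subset.trans hLO) (fun x hx => b8 x (hLP (interior_subset hx)).1) hN.isClosed
    fun x hx _ => hM2 x (hNM hx)
  have c3' : ∀ x ∉ L, h3 x = h2 x := fun x hx => c3 x fun h' => hx (interior_subset h')
  set O : Set E := interior L ∪ ((U \ K) \ L) ∪ interior N with hO
  have oO : IsOpen O := (isOpen_interior.union (hM.sdiff hL.isClosed)).union isOpen_interior
  have hOO : O ⊆ Om := by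
    rintro x ((hx | hx) | hx)
    exacts [hLO (interior_subset hx), hUO hx.1.1, hUO (hNM (interior_subset hx)).1]
  have hOm3 : ∀ x ∈ O, SMoll h3 x := by
    rintro x ((hx | hx) | hx)
    · exact c2 x hx
    · refine (hM2 x hx.1).congr ?_
      filter_upwards [hL.isClosed.isOpen_compl.mem_nhds hx.2] with y hy using c3' y hy
    · refine (hM2 x (hNM (interior_subset hx))).congr ?_
      filter_upwards [isOpen_interior.mem_nhds hx] with y hy using c4 y (interior_subset hy)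
  have hOQ : ∀ x ∈ O \ (K1 ∪ L), x ∈ U ∧ h3 x = h x := by
    rintro x ⟨hx, hx'⟩
    have h4 : x ∉ L := fun h' => hx' (Or.inr h')
    have h5 : x ∈ U \ K := by
      rcases hx with (hx | hx) | hx
      exacts [(h4 (interior_subset hx)).elim, hx.1, hNM (interior_subset hx)]
    exact ⟨h5.1, by rw [c3' x h4, b4 x ⟨hUO h5.1, h5.2⟩, a4 x fun h' => hx' (Or.inl h')]⟩
  obtain ⟨g, K2, d1, d2, d3, d4, -, d6⟩ := rm hfin hLa c1 oO hOO hOm3 (a2.union hL) (hW.union hU)
    (union_subset (a3.trans subset_union_right) fun x hx => (hLP hx).2)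
    ((hs.1.mono fun x hx => (hOQ x hx).1).congr fun x hx => (hOQ x hx).2)
  refine ⟨g, d1, ⟨K1 ∪ K ∪ L ∪ K2, ((a2.union b2).union hL).union d3, ?_, fun x hx => ?_⟩, O, oO,
    ?_, hOO, d2⟩
  · exact union_subset (union_subset (union_subset (a3.trans subset_union_right)
      (b3.trans subset_union_left)) fun x hx => (hLP hx).2) d4
  · have h4 := hx.2
    simp only [mem_union, not_or] at h4
    rw [d6 x h4.2, c3' x h4.1.2, b4 x ⟨hx.1, h4.1.1.2⟩, a4 x h4.1.1.1]
  · rintro x (hx | hx)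
    · exact Or.inl (Or.inl (hDL hx))
    · by_cases hxL : x ∈ L
      · exact Or.inr (hTN ⟨hxL, hx.2⟩)
      · exact Or.inl (Or.inr ⟨⟨hx.1, fun h' => hx.2 (b3 h')⟩, hxL⟩)

/-- **Smooth handle straightening from the piecewise affine one**, in Euclidean 3-space. -/
theorem wrap {h : EuclideanSpace ℝ (Fin 3) → EuclideanSpace ℝ (Fin 3)}
    {Om La U W C D : Set (EuclideanSpace ℝ (Fin 3))} (hOm : IsOpen Om) (hLa : IsOpen La)
    (hU : IsOpen U) (hW : IsOpen W) (hUO : U ⊆ Om) (hC : IsCompact C) (hCU : C ⊆ U)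
    (hD : IsCompact D) (hDW : D ⊆ W ∪ U) (hh : HomeoOn h Om La) (hs : SmOn h U)
    (H : HPL Om La W C D) :
    ∃ h', HomeoOn h' Om La ∧ (∃ K, IsCompact K ∧ K ⊆ W ∪ U ∧ ∀ x ∈ Om \ K, h' x = h x) ∧
      ∃ O, IsOpen O ∧ D ∪ (U \ W) ⊆ O ∧ O ⊆ Om ∧ SmOn h' O :=
  wrap_gen finrank_euclideanSpace_fin R096.Ed_276.edgeB
    (R096.Rd_695.core_of_bel_spec R096.BelF_205.bel) hOm hLa hU hW hUO hC hCU hD hDW hh hs H

/-- A piecewise affine homeomorphism is smoothed near a compact set, with compact support. -/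
theorem smooth_of_pl {h : EuclideanSpace ℝ (Fin 3) → EuclideanSpace ℝ (Fin 3)}
    {Om La P D : Set (EuclideanSpace ℝ (Fin 3))} (hLa : IsOpen La)
    (hP : IsOpen P) (hPO : P ⊆ Om) (hD : IsCompact D) (hDP : D ⊆ P) (hh : HomeoOn h Om La)
    (hpl : LocPL h P) :
    ∃ h', HomeoOn h' Om La ∧ (∃ K, IsCompact K ∧ K ⊆ P ∧ ∀ x ∉ K, h' x = h x) ∧
      ∃ O, IsOpen O ∧ D ⊆ O ∧ O ⊆ P ∧ SmOn h' O := by
  obtain ⟨L, hL, hDL, hLP⟩ := exists_compact_between hD hP hDP
  obtain ⟨h3, c1, c2, c3, -⟩ := stage finrank_euclideanSpace_fin R096.Ed_276.edgeB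
    (R096.Rd_695.core_of_bel_spec R096.BelF_205.bel) hLa hh (P := interior L) isOpen_interior
    (interior_subset.trans (hLP.trans hPO)) (fun x hx => hpl x (hLP (interior_subset hx)))
    isClosed_empty fun x hx _ => hx.elim
  obtain ⟨g, K2, d1, d2, -, -, d5, -⟩ := rm finrank_euclideanSpace_fin hLa c1 isOpen_interior
    (interior_subset.trans (hLP.trans hPO)) c2 hL hP hLP (by
      rw [Set.sdiff_eq_empty.2 interior_subset]; exact contDiffOn_empty)
  exact ⟨g, d1, ⟨L, hL, hLP, fun x hx => by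
    rw [d5 x fun h' => hx (interior_subset h'), c3 x fun h' => hx (interior_subset h')]⟩,
    interior L, isOpen_interior, hDL, interior_subset.trans hLP, d2⟩

end Crest.Agent.X212.Smo49
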