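import Crest.Agent.R096.Str1_696

/-!
Row 212, layer T, package SMO (helper49), part 1: `C¹`-approximation of smooth maps by piecewise
affine ones (difference of two maxima of tangent planes; no triangulation).
-/

set_option autoImplicit false
set_option linter.style.longLine false

open Set Metric Filter Topology
open scoped NNReal ContDiff

namespace Crest.Agent.X212.Smo49

open Crest.Agent.R096.Str_696 (LocPL)

section sel

variable {E F : Type*} [NormedAddCommGroup E] [NormedSpace ℝ E] [NormedAddCommGroup F]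
  [NormedSpace ℝ F]

/-- a continuous selection of finitely many affine maps -/
def Sel (g : E → F) : Prop :=
  Continuous g ∧ ∃ S : Finset (E →ᵃ[ℝ] F), ∀ y, ∃ a ∈ S, g y = a y

theorem Sel.locPL {g : E → F} (hg : Sel g) (Ω : Set E) : LocPL g Ω := by
  obtain ⟨hc, S, hS⟩ := hg
  exact fun x _ => ⟨1, one_pos, S, hc.continuousOn, fun y _ => hS y⟩

theorem Sel.zero : Sel (fun _ : E => (0 : F)) :=
  ⟨continuous_const, {0}, fun _ => ⟨0, Finset.mem_singleton_self _, rfl⟩⟩

theorem Sel.add {f g : E → F} (hf : Sel f) (hg : Sel g) : Sel (fun x => f x + g x) := by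
  classical
  obtain ⟨fc, S, hS⟩ := hf
  obtain ⟨gc, T, hT⟩ := hg
  refine ⟨fc.add gc, (S ×ˢ T).image fun p => p.1 + p.2, fun y => ?_⟩
  obtain ⟨a, ha, hay⟩ := hS y
  obtain ⟨b, hb, hby⟩ := hT y
  exact ⟨a + b, Finset.mem_image.2 ⟨(a, b), Finset.mem_product.2 ⟨ha, hb⟩, rfl⟩, by
    simp [hay, hby]⟩

theorem Sel.clm {G : Type*} [NormedAddCommGroup G] [NormedSpace ℝ G] {f : E → F} (hf : Sel f)
    (A : F →L[ℝ] G) : Sel (fun x => A (f x)) := by
  classical
  obtain ⟨fc, S, hS⟩ := hf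
  refine ⟨A.continuous.comp fc, S.image fun a => (A : F →ₗ[ℝ] G).toAffineMap.comp a, fun y => ?_⟩
  obtain ⟨a, ha, hay⟩ := hS y
  exact ⟨_, Finset.mem_image.2 ⟨a, ha, rfl⟩, by simp [hay]⟩

theorem Sel.sub {f g : E → F} (hf : Sel f) (hg : Sel g) : Sel (fun x => f x - g x) := by
  have h := hf.add (hg.clm (-ContinuousLinearMap.id ℝ F))
  simpa [sub_eq_add_neg] using h

theorem Sel.sum {ι : Type*} (s : Finset ι) {f : ι → E → F} (hf : ∀ i ∈ s, Sel (f i)) :
    Sel (fun x => ∑ i ∈ s, f i x) := by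
  classical
  induction s using Finset.induction_on with
  | empty => simpa using (Sel.zero : Sel (fun _ : E => (0 : F)))
  | insert a s ha ih =>
    have h := (hf a (Finset.mem_insert_self _ _)).add
      (ih fun i hi => hf i (Finset.mem_insert_of_mem hi))
    simpa [Finset.sum_insert ha] using h

/-- maximum of the tangent planes of a strongly convex function at the points of a fine net -/
theorem exists_sel_up {u : E → ℝ} {D : E → E →L[ℝ] ℝ} {M L : ℝ} (hM : 0 ≤ M) (hL : 0 ≤ L)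
    (hlow : ∀ x p, ‖x - p‖ ^ 2 ≤ u x - u p - D p (x - p))
    (hup : ∀ x p, u x - u p - D p (x - p) ≤ M * ‖x - p‖ ^ 2)
    (hD : ∀ p q, ‖D p - D q‖ ≤ L * ‖p - q‖) {K : Set E} (hK : IsCompact K) {ε : ℝ} (hε : 0 < ε) :
    ∃ g : E → ℝ, Sel g ∧ (∀ x ∈ K, |g x - u x| ≤ ε) ∧
      ∀ x ∈ K, ∀ y ∈ K, |(g x - u x) - (g y - u y)| ≤ ε * ‖x - y‖ := by
  classical
  set c : ℝ := M + 1 with hc
  have hc1 : 1 ≤ c := by linarith
  set B : ℝ := L * c + M + 1 with hB
  have hB1 : 1 ≤ B := by have : 0 ≤ L * c := by positivity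
                         linarith
  set δ : ℝ := min 1 (ε / B) with hδ
  have hδ0 : 0 < δ := lt_min one_pos (by positivity)
  have hδ1 : δ ≤ 1 := min_le_left _ _
  have hδB : B * δ ≤ ε := by
    have : δ ≤ ε / B := min_le_right _ _
    rw [le_div_iff₀ (by linarith)] at this
    linarith
  obtain ⟨T0, -, hT0f, hT0⟩ := hK.finite_cover_balls hδ0
  set T : Finset E := insert 0 hT0f.toFinset with hT
  have hne : T.Nonempty := ⟨0, Finset.mem_insert_self _ _⟩
  set a : E → E →ᵃ[ℝ] ℝ := fun p =>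
    ((D p : E →ₗ[ℝ] ℝ).toAffineMap) + AffineMap.const ℝ E (u p - D p p) with ha
  have haap : ∀ p x, a p x = u p + D p (x - p) := by
    intro p x
    simp only [ha, AffineMap.coe_add, Pi.add_apply, LinearMap.coe_toAffineMap,
      ContinuousLinearMap.coe_coe, AffineMap.const_apply, map_sub]
    ring
  set g : E → ℝ := fun x => T.sup' hne fun p => a p x with hg
  have hact : ∀ x, ∃ p ∈ T, g x = a p x := fun x => Finset.exists_mem_eq_sup' hne _
  have hle : ∀ x, ∀ p ∈ T, a p x ≤ g x := fun x p hp => Finset.le_sup' (fun p => a p x) hp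
  have hgc : Continuous g := by
    have : g = T.sup' hne fun p => fun x => a p x := by
      funext x; simp only [hg, Finset.sup'_apply]
    rw [this]
    refine Continuous.finset_sup' hne fun p _ => ?_
    have : (fun x => a p x) = fun x => u p + D p (x - p) := funext (haap p)
    rw [this]; fun_prop
  have h0 : ∀ x, g x ≤ u x := by
    intro x
    obtain ⟨p, -, hp⟩ := hact x
    have := hlow x p
    rw [hp, haap]
    nlinarith [sq_nonneg ‖x - p‖]
  have h1 : ∀ x ∈ K, u x - g x ≤ M * δ ^ 2 := by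
    intro x hx
    obtain ⟨p, hp, hxp⟩ := mem_iUnion₂.1 (hT0 hx)
    have hpT : p ∈ T := Finset.mem_insert_of_mem (hT0f.mem_toFinset.2 hp)
    have h2 := hle x p hpT
    rw [haap] at h2
    have h3 := hup x p
    rw [mem_ball, dist_eq_norm] at hxp
    have h4 : ‖x - p‖ ^ 2 ≤ δ ^ 2 := by gcongr
    nlinarith
  have hMδ : M * δ ≤ ε := by
    have : M ≤ B := by have : 0 ≤ L * c := by positivity
                       linarith
    nlinarith
  have hone : ∀ x ∈ K, ∀ y ∈ K, (g x - u x) - (g y - u y) ≤ ε * ‖x - y‖ := by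
    intro x hx y hy
    by_cases hxy : ‖x - y‖ ≤ δ
    · obtain ⟨p, hpT, hp⟩ := hact x
      have h2 := hle y p hpT
      have h3 : ‖x - p‖ ≤ c * δ := by
        have h4 := hlow x p
        have h5 := h1 x hx
        rw [hp, haap] at h5
        have h6 : ‖x - p‖ ^ 2 ≤ (c * δ) ^ 2 := by
          have : M ≤ c ^ 2 := by nlinarith
          have h7 : M * δ ^ 2 ≤ c ^ 2 * δ ^ 2 := by gcongr
          rw [mul_pow]; linarith
        exact abs_le_of_sq_le_sq' h6 (by positivity) |>.2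
      have h4 := hup y x
      rw [norm_sub_rev y x] at h4
      have h5 : (D p - D x) (x - y) ≤ L * (c * δ) * ‖x - y‖ := by
        refine (le_abs_self _).trans ?_
        rw [← Real.norm_eq_abs]
        refine ((D p - D x).le_opNorm _).trans ?_
        gcongr
        refine (hD p x).trans ?_
        rw [norm_sub_rev]; gcongr
      rw [hp, haap] at *
      have e1 : D p (x - p) - D p (y - p) = D p (x - y) := by
        rw [← map_sub]; congr 1; abel
      have e2 : D x (y - x) = - D x (x - y) := by rw [← map_neg]; congr 1; abel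
      rw [sub_apply] at h5
      have h6 : M * ‖x - y‖ ^ 2 ≤ M * δ * ‖x - y‖ := by
        rw [sq, ← mul_assoc]; gcongr
      have h7 : (L * (c * δ) + M * δ) * ‖x - y‖ ≤ ε * ‖x - y‖ := by
        gcongr
        have : L * (c * δ) + M * δ = (L * c + M) * δ := by ring
        rw [this]; nlinarith
      nlinarith
    · push Not at hxy
      have h2 := h0 x
      have h3 := h1 y hy
      have h4 : M * δ ^ 2 ≤ ε * ‖x - y‖ := by
        rw [sq, ← mul_assoc]
        exact mul_le_mul hMδ hxy.le hδ0.le hε.le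
      linarith
  refine ⟨g, ⟨hgc, T.image a, fun y => ?_⟩, fun x hx => ?_, fun x hx y hy => ?_⟩
  · obtain ⟨p, hp, h⟩ := hact y
    exact ⟨a p, Finset.mem_image_of_mem _ hp, h⟩
  · have h2 := h0 x
    have h3 := h1 x hx
    have h4 : M * δ ^ 2 ≤ ε := by
      rw [sq, ← mul_assoc]
      have : M * δ * δ ≤ M * δ * 1 := by gcongr
      linarith
    rw [abs_le]; constructor <;> linarith
  · have h2 := hone x hx y hy
    have h3 := hone y hy x hx
    rw [norm_sub_rev] at h3
    rw [abs_le]; constructor <;> linarith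

end sel

section app

variable {E : Type*} [NormedAddCommGroup E] [InnerProductSpace ℝ E]

theorem exists_sel_quad {φ : E → ℝ} (hφ : Differentiable ℝ φ) {L : ℝ} (hL : 0 ≤ L)
    (hD : ∀ p q, ‖fderiv ℝ φ p - fderiv ℝ φ q‖ ≤ L * ‖p - q‖) {K : Set E} (hK : IsCompact K)
    {ε : ℝ} (hε : 0 < ε) :
    ∃ g : E → ℝ, Sel g ∧ (∀ x ∈ K, |g x - (φ x + (L + 1) * ‖x‖ ^ 2)| ≤ ε) ∧
      ∀ x ∈ K, ∀ y ∈ K, |(g x - (φ x + (L + 1) * ‖x‖ ^ 2)) - (g y - (φ y + (L + 1) * ‖y‖ ^ 2))| ≤
        ε * ‖x - y‖ := by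
  have hT : ∀ x p, |φ x - φ p - fderiv ℝ φ p (x - p)| ≤ L * ‖x - p‖ ^ 2 := by
    intro x p
    have h := (convex_closedBall p ‖x - p‖).norm_image_sub_le_of_norm_fderiv_le' (𝕜 := ℝ)
      (f := φ) (φ := fderiv ℝ φ p) (C := L * ‖x - p‖) (fun z _ => hφ z) (fun z hz => by
        refine (hD z p).trans ?_
        rw [mem_closedBall, dist_eq_norm] at hz
        gcongr) (mem_closedBall_self (norm_nonneg _))
      (show x ∈ closedBall p ‖x - p‖ by rw [mem_closedBall, dist_eq_norm])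
    rw [Real.norm_eq_abs] at h
    rw [sq, ← mul_assoc]; exact h
  have hq : ∀ x p : E, ‖x‖ ^ 2 - ‖p‖ ^ 2 - 2 * inner ℝ p (x - p) = ‖x - p‖ ^ 2 := by
    intro x p
    rw [norm_sub_sq_real, inner_sub_right, real_inner_self_eq_norm_sq, real_inner_comm]
    ring
  refine exists_sel_up (u := fun x => φ x + (L + 1) * ‖x‖ ^ 2)
    (D := fun p => fderiv ℝ φ p + (2 * (L + 1)) • innerSL ℝ p) (M := 2 * L + 1)
    (L := L + 2 * (L + 1)) (by linarith) (by linarith) ?_ ?_ ?_ hK hε
  · intro x p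
    have h1 := abs_le.1 (hT x p)
    have h2 := hq x p
    simp only [add_apply, smul_apply, innerSL_apply_apply,
      smul_eq_mul]
    have h3 : (L + 1) * ‖x‖ ^ 2 - (L + 1) * ‖p‖ ^ 2 - 2 * (L + 1) * inner ℝ p (x - p)
        = (L + 1) * ‖x - p‖ ^ 2 := by rw [← h2]; ring
    nlinarith
  · intro x p
    have h1 := abs_le.1 (hT x p)
    have h2 := hq x p
    simp only [add_apply, smul_apply, innerSL_apply_apply,
      smul_eq_mul]
    have h3 : (L + 1) * ‖x‖ ^ 2 - (L + 1) * ‖p‖ ^ 2 - 2 * (L + 1) * inner ℝ p (x - p)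
        = (L + 1) * ‖x - p‖ ^ 2 := by rw [← h2]; ring
    nlinarith
  · intro p q
    have e : fderiv ℝ φ p + (2 * (L + 1)) • innerSL ℝ p - (fderiv ℝ φ q + (2 * (L + 1)) • innerSL ℝ q)
        = (fderiv ℝ φ p - fderiv ℝ φ q) + (2 * (L + 1)) • innerSL ℝ (p - q) := by
      rw [map_sub, smul_sub]; abel
    rw [e]
    refine (norm_add_le _ _).trans ?_
    rw [norm_smul, innerSL_apply_norm, Real.norm_of_nonneg (by linarith), add_mul]
    exact add_le_add (hD p q) le_rfl

/-- scalar case -/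
theorem exists_sel_real [FiniteDimensional ℝ E] {φ : E → ℝ} (hφ : ContDiff ℝ 2 φ)
    (hs : HasCompactSupport φ) {K : Set E} (hK : IsCompact K) {ε : ℝ} (hε : 0 < ε) :
    ∃ g : E → ℝ, Sel g ∧ (∀ x ∈ K, |g x - φ x| ≤ ε) ∧
      ∀ x ∈ K, ∀ y ∈ K, |(g x - φ x) - (g y - φ y)| ≤ ε * ‖x - y‖ := by
  have h1 : ContDiff ℝ 1 (fderiv ℝ φ) := hφ.fderiv_right (by norm_num)
  obtain ⟨L, hL⟩ := h1.lipschitzWith_of_hasCompactSupport (hs.fderiv ℝ) one_ne_zero
  have hD : ∀ p q, ‖fderiv ℝ φ p - fderiv ℝ φ q‖ ≤ L * ‖p - q‖ := fun p q => by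
    have := hL.dist_le_mul p q
    rwa [dist_eq_norm, dist_eq_norm] at this
  obtain ⟨g1, s1, a1, b1⟩ := exists_sel_quad (hφ.differentiable (by norm_num)) L.2 hD hK (half_pos hε)
  obtain ⟨g2, s2, a2, b2⟩ := exists_sel_quad (φ := fun _ : E => (0 : ℝ)) (differentiable_const _) L.2
    (fun p q => by simp only [fderiv_fun_const, Pi.zero_apply, sub_self, norm_zero]; exact mul_nonneg L.2 (norm_nonneg _)) hK
    (half_pos hε)
  refine ⟨fun x => g1 x - g2 x, s1.sub s2, fun x hx => ?_, fun x hx y hy => ?_⟩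
  · have h2 := abs_le.1 (a1 x hx)
    have h3 := abs_le.1 (a2 x hx)
    rw [abs_le]; constructor <;> linarith [h2.1, h2.2, h3.1, h3.2]
  · have h2 := abs_le.1 (b1 x hx y hy)
    have h3 := abs_le.1 (b2 x hx y hy)
    rw [abs_le]; constructor <;> linarith [h2.1, h2.2, h3.1, h3.2]

/-- **`C¹`-approximation by piecewise affine maps** -/
theorem exists_sel [FiniteDimensional ℝ E] {F : Type*} [NormedAddCommGroup F]
    [InnerProductSpace ℝ F] [FiniteDimensional ℝ F] {φ : E → F} (hφ : ContDiff ℝ 2 φ)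
    (hs : HasCompactSupport φ) {K : Set E} (hK : IsCompact K) {ε : ℝ} (hε : 0 < ε) :
    ∃ g : E → F, Sel g ∧ (∀ x ∈ K, ‖g x - φ x‖ ≤ ε) ∧
      ∀ x ∈ K, ∀ y ∈ K, ‖(g x - φ x) - (g y - φ y)‖ ≤ ε * ‖x - y‖ := by
  set b := stdOrthonormalBasis ℝ F with hb
  set n : ℝ := ((Module.finrank ℝ F : ℕ) : ℝ) with hn
  have hn0 : 0 ≤ n := Nat.cast_nonneg _
  have hε' : 0 < ε / (n + 1) := by positivity
  have h1 : ∀ i, ∃ g : E → ℝ, Sel g ∧ (∀ x ∈ K, |g x - inner ℝ (b i) (φ x)| ≤ ε / (n + 1)) ∧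
      ∀ x ∈ K, ∀ y ∈ K, |(g x - inner ℝ (b i) (φ x)) - (g y - inner ℝ (b i) (φ y))| ≤
        ε / (n + 1) * ‖x - y‖ := by
    intro i
    refine exists_sel_real (φ := fun x => inner ℝ (b i) (φ x)) (contDiff_const.inner ℝ hφ) ?_ hK hε'
    exact hs.comp_left (g := fun v => inner ℝ (b i) v) (inner_zero_right _)
  choose g hg ha hc using h1
  have hsum : ∀ (t : Fin (Module.finrank ℝ F) → ℝ) (C : ℝ), 0 ≤ C → (∀ i, |t i| ≤ ε / (n + 1) * C) →
      ‖∑ i, t i • b i‖ ≤ ε * C := by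
    intro t C hC ht
    refine (norm_sum_le _ _).trans ?_
    have h2 : ∑ i, ‖t i • b i‖ ≤ ∑ _i : Fin (Module.finrank ℝ F), ε / (n + 1) * C := by
      refine Finset.sum_le_sum fun i _ => ?_
      rw [norm_smul, b.orthonormal.1 i, mul_one, Real.norm_eq_abs]
      exact ht i
    refine h2.trans ?_
    rw [Finset.sum_const, Finset.card_univ, Fintype.card_fin, nsmul_eq_mul, ← hn, ← mul_assoc]
    gcongr
    rw [← mul_div_assoc, div_le_iff₀ (by positivity)]
    nlinarith
  have hrep : ∀ x, (∑ i, g i x • b i) - φ x = ∑ i, (g i x - inner ℝ (b i) (φ x)) • b i := by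
    intro x
    conv_lhs => rw [← b.sum_repr' (φ x)]
    rw [← Finset.sum_sub_distrib]
    exact Finset.sum_congr rfl fun i _ => (sub_smul _ _ _).symm
  refine ⟨fun x => ∑ i, g i x • b i, Sel.sum _ fun i _ => ?_, fun x hx => ?_, fun x hx y hy => ?_⟩
  · exact (hg i).clm (ContinuousLinearMap.toSpanSingleton ℝ (b i))
  · rw [hrep]
    have := hsum _ 1 zero_le_one fun i => by rw [mul_one]; exact ha i x hx
    rwa [mul_one] at this
  · rw [hrep, hrep, ← Finset.sum_sub_distrib]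
    have := hsum _ ‖x - y‖ (norm_nonneg _) fun i => hc i x hx y hy
    refine le_of_eq_of_le ?_ this
    congr 1
    exact Finset.sum_congr rfl fun i _ => (sub_smul _ _ _).symm

end app

end Crest.Agent.X212.Smo49
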