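import Crest.Agent.R096.P5Spec_205

/-!
Row 212, layer T, package SMO (helper49), part 2: homeomorphisms between open sets (small
perturbations, gluing a modification on an open subset).
-/

set_option autoImplicit false
set_option linter.style.longLine false
set_option linter.unusedSectionVars false

open Set Metric Filter Topology
open scoped NNReal ContDiff

namespace Crest.Agent.X212.Smo49

open Crest.Agent.R096.P5Spec_205 (HomeoOn)

variable {E : Type*} [NormedAddCommGroup E] [InnerProductSpace ℝ E]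

theorem exists_beta {La : Set E} (hLa : IsOpen La) :
    ∃ β : E → ℝ, Continuous β ∧ (∀ z ∈ La, 0 < β z) ∧ (∀ z, β z ≤ 1) ∧
      ∀ z, ∀ y ∉ La, β z ≤ ‖z - y‖ / 2 := by
  rcases (Laᶜ).eq_empty_or_nonempty with he | hne
  · refine ⟨fun _ => 1, continuous_const, fun _ _ => one_pos, fun _ => le_rfl, fun z y hy => ?_⟩
    have : y ∈ Laᶜ := hy
    rw [he] at this; exact this.elim
  · refine ⟨fun z => min 1 (infDist z Laᶜ / 2),
      continuous_const.min ((continuous_infDist_pt _).div_const 2), fun z hz => ?_,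
      fun z => min_le_left _ _, fun z y hy => (min_le_right _ _).trans ?_⟩
    · refine lt_min one_pos (half_pos ?_)
      exact (hLa.isClosed_compl.notMem_iff_infDist_pos hne).1 (fun h => h hz)
    · have := infDist_le_dist_of_mem (x := z) (show y ∈ Laᶜ from hy)
      rw [dist_eq_norm] at this
      linarith

theorem inv_spec {h : E → E} {Om La : Set E} (hh : HomeoOn h Om La) :
    ∃ k : E → E, ContinuousOn k La ∧ (∀ x ∈ Om, k (h x) = x) ∧ ∀ y ∈ La, k y ∈ Om ∧ h (k y) = y := by
  obtain ⟨k, hk, hkl⟩ := hh.inv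
  refine ⟨k, hk, hkl, fun y hy => ?_⟩
  obtain ⟨x, hx, rfl⟩ := hh.bij.surjOn hy
  rw [hkl x hx]; exact ⟨hx, rfl⟩

theorem isOpen_image {h : E → E} {Om La P : Set E} (hLa : IsOpen La) (hh : HomeoOn h Om La)
    (hP : IsOpen P) (hPO : P ⊆ Om) : IsOpen (h '' P) := by
  obtain ⟨k, hk, hkl, hkr⟩ := inv_spec hh
  have : h '' P = La ∩ k ⁻¹' P := by
    ext y
    constructor
    · rintro ⟨x, hx, rfl⟩
      exact ⟨hh.bij.mapsTo (hPO hx), by rw [mem_preimage, hkl x (hPO hx)]; exact hx⟩
    · rintro ⟨hy, hy2⟩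
      exact ⟨k y, hy2, (hkr y hy).2⟩
  rw [this]
  exact hk.isOpen_inter_preimage hLa hP

theorem restrict {h : E → E} {Om La P : Set E} (hh : HomeoOn h Om La) (hPO : P ⊆ Om) :
    HomeoOn h P (h '' P) := by
  obtain ⟨k, hk, hkl⟩ := hh.inv
  refine ⟨(hh.bij.injOn.mono hPO).bijOn_image, hh.cont.mono hPO, k, hk.mono ?_,
    fun x hx => hkl x (hPO hx)⟩
  rintro _ ⟨x, hx, rfl⟩
  exact hh.bij.mapsTo (hPO hx)

theorem homeo_congr {h g : E → E} {Om La : Set E} (hh : HomeoOn h Om La) (e : ∀ x ∈ Om, g x = h x) :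
    HomeoOn g Om La := by
  obtain ⟨k, hk, hkl⟩ := hh.inv
  exact ⟨hh.bij.congr fun x hx => (e x hx).symm, hh.cont.congr e, k, hk,
    fun x hx => by rw [e x hx, hkl x hx]⟩

theorem homeo_neg {h : E → E} {Om La : Set E} (hh : HomeoOn h Om La) :
    HomeoOn (fun x => -h x) Om (-La) := by
  obtain ⟨k, hk, hkl⟩ := hh.inv
  refine ⟨⟨fun x hx => by simpa using hh.bij.mapsTo hx, fun x hx y hy e => hh.bij.injOn hx hy
    (neg_injective e), fun y hy => ?_⟩, hh.cont.neg, fun y => k (-y), ?_, fun x hx => by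
      simp [hkl x hx]⟩
  · obtain ⟨x, hx, e⟩ := hh.bij.surjOn (show -y ∈ La from hy)
    exact ⟨x, hx, by simp [e]⟩
  · exact hk.comp continuous_neg.continuousOn fun y hy => hy

theorem homeo_neg' {h : E → E} {Om La : Set E} (hh : HomeoOn h Om (-La)) :
    HomeoOn (fun x => -h x) Om La := by
  have := homeo_neg hh
  rwa [neg_neg] at this

/-- an injective, locally open, continuous map close to a homeomorphism is one -/
theorem homeo_of_close [FiniteDimensional ℝ E] {h f : E → E} {Om La : Set E} (hOm : IsOpen Om)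
    (hLa : IsOpen La) (hh : HomeoOn h Om La) (hc : ContinuousOn f Om) (hi : InjOn f Om)
    (ho : ∀ x ∈ Om, 𝓝 (f x) ≤ map f (𝓝 x)) (h1 : ∀ x ∈ Om, ‖f x - h x‖ ≤ 1)
    (h2 : ∀ x ∈ Om, ∀ y ∉ La, ‖f x - h x‖ ≤ ‖h x - y‖ / 2) : HomeoOn f Om La := by
  have hprop : ProperSpace E := FiniteDimensional.proper_real E
  obtain ⟨k, hk, hkl, hkr⟩ := inv_spec hh
  have hseg : ∀ x ∈ Om, segment ℝ (h x) (f x) ⊆ La := by
    intro x hx w hw
    by_contra hwL
    have h3 := h2 x hx w hwL
    have h4 : ‖h x - w‖ ≤ ‖f x - h x‖ := by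
      have := dist_add_dist_of_mem_segment hw
      rw [dist_eq_norm, dist_eq_norm (h x) (f x), norm_sub_rev (h x) (f x)] at this
      linarith [dist_nonneg (x := w) (y := f x)]
    have h5 : ‖h x - w‖ = 0 := le_antisymm (by linarith [norm_nonneg (h x - w)]) (norm_nonneg _)
    rw [norm_eq_zero, sub_eq_zero] at h5
    exact hwL (h5 ▸ hh.bij.mapsTo hx)
  have hmaps : MapsTo f Om La := fun x hx => hseg x hx (right_mem_segment _ _ _)
  have hopen : IsOpen (f '' Om) := by
    rw [isOpen_iff_mem_nhds]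
    rintro _ ⟨x, hx, rfl⟩
    exact ho x hx (image_mem_map (hOm.mem_nhds hx))
  have hcl : ∀ z ∈ La, z ∈ closure (f '' Om) → z ∈ f '' Om := by
    intro z hz hzc
    obtain ⟨d, hd, hdL⟩ := Metric.isOpen_iff.1 hLa z hz
    set C : Set E := closedBall z 2 ∩ ⋂ y ∈ Laᶜ, {w | d / 3 ≤ ‖w - y‖} with hC
    have hCc : IsCompact C := (isCompact_closedBall z 2).inter_right
      (isClosed_biInter fun y _ => isClosed_le continuous_const (by fun_prop))
    have hCL : C ⊆ La := by
      intro w hw
      by_contra hwL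
      have := mem_iInter₂.1 hw.2 w hwL
      simp only [sub_self, norm_zero, mem_ofPred_eq] at this
      linarith
    have hKc : IsCompact (f '' (k '' C)) :=
      (hCc.image_of_continuousOn (hk.mono hCL)).image_of_continuousOn (hc.mono (by
        rintro _ ⟨w, hw, rfl⟩; exact (hkr w (hCL hw)).1))
    have hsub : ball z (min (d / 2) 1) ∩ f '' Om ⊆ f '' (k '' C) := by
      rintro _ ⟨hb, x, hx, rfl⟩
      rw [mem_ball, dist_eq_norm, lt_min_iff] at hb
      refine ⟨x, ⟨h x, ⟨?_, mem_iInter₂.2 fun y hy => ?_⟩, hkl x hx⟩, rfl⟩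
      · rw [mem_closedBall, dist_eq_norm]
        have e : h x - z = (f x - z) - (f x - h x) := by abel
        rw [e]
        linarith [norm_sub_le (f x - z) (f x - h x), h1 x hx]
      · have h3 := h2 x hx y hy
        have h4 : d ≤ ‖z - y‖ := by
          by_contra hlt
          exact hy (hdL (by rw [mem_ball, dist_eq_norm, norm_sub_rev]; exact not_le.1 hlt))
        have e : z - y = (h x - y) + (f x - h x) - (f x - z) := by abel
        have h5 : ‖z - y‖ ≤ ‖h x - y‖ + ‖f x - h x‖ + ‖f x - z‖ := by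
          rw [e]
          exact (norm_sub_le _ _).trans (by gcongr; exact norm_add_le _ _)
        show d / 3 ≤ ‖h x - y‖
        linarith
    have h6 : z ∈ closure (ball z (min (d / 2) 1) ∩ f '' Om) :=
      isOpen_ball.inter_closure ⟨mem_ball_self (lt_min (half_pos hd) one_pos), hzc⟩
    obtain ⟨_, ⟨w, hw, rfl⟩, e⟩ := hKc.isClosed.closure_subset_iff.2 hsub h6
    exact ⟨k w, (hkr w (hCL hw)).1, e⟩
  have hsurj : SurjOn f Om La := by
    intro z hz
    obtain ⟨hx, hxz⟩ := hkr z hz
    have h3 : segment ℝ z (f (k z)) ⊆ connectedComponentIn La z := by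
      refine (convex_segment _ _).isPreconnected.subset_connectedComponentIn
        (left_mem_segment _ _ _) ?_
      have := hseg _ hx
      rwa [hxz] at this
    refine isPreconnected_connectedComponentIn.subset_of_closure_inter_subset hopen
      ⟨f (k z), h3 (right_mem_segment _ _ _), mem_image_of_mem f hx⟩ ?_
      (mem_connectedComponentIn hz)
    rintro y ⟨hy1, hy2⟩
    exact hcl y (connectedComponentIn_subset _ _ hy2) hy1
  have hne : Nonempty E := ⟨0⟩
  refine ⟨⟨hmaps, hi, hsurj⟩, hc, Function.invFunOn f Om, fun z hz => ?_,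
    fun x hx => hi.leftInvOn_invFunOn hx⟩
  obtain ⟨x, hx, rfl⟩ := hsurj hz
  refine ContinuousAt.continuousWithinAt ?_
  rw [ContinuousAt, hi.leftInvOn_invFunOn hx]
  intro N hN
  have h3 : f '' (N ∩ Om) ∈ 𝓝 (f x) := ho x hx (image_mem_map (inter_mem hN (hOm.mem_nhds hx)))
  refine mem_map.2 (mem_of_superset h3 ?_)
  rintro _ ⟨y, hy, rfl⟩
  rw [mem_preimage, hi.leftInvOn_invFunOn hy.2]
  exact hy.1

open Classical in
/-- gluing a modification on an open subset which is small near the frontier -/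
theorem homeo_glue {h g : E → E} {Om La P : Set E} (hLa : IsOpen La) (hh : HomeoOn h Om La)
    (hP : IsOpen P) (hPO : P ⊆ Om) (hg : HomeoOn g P (h '' P))
    (h2 : ∀ x ∈ P, ∀ y ∉ h '' P, ‖g x - h x‖ ≤ ‖h x - y‖ / 2) :
    HomeoOn (P.piecewise g h) Om La := by
  obtain ⟨k, hk, hkl, hkr⟩ := inv_spec hh
  obtain ⟨k', hk', hkl', hkr'⟩ := inv_spec hg
  have hPo : IsOpen (h '' P) := isOpen_image hLa hh hP hPO
  have hPL : h '' P ⊆ La := by rintro _ ⟨x, hx, rfl⟩; exact hh.bij.mapsTo (hPO hx)
  have hout : ∀ x ∈ Om, x ∉ P → h x ∉ h '' P := by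
    rintro x hx hxP ⟨p, hp, e⟩
    exact hxP (hh.bij.injOn (hPO hp) hx e ▸ hp)
  have hleft : ∀ x ∈ Om, (h '' P).piecewise k' k (P.piecewise g h x) = x := by
    intro x hx
    by_cases hxP : x ∈ P
    · rw [piecewise_eq_of_mem _ _ _ hxP, piecewise_eq_of_mem _ _ _ (hg.bij.mapsTo hxP), hkl' x hxP]
    · rw [piecewise_eq_of_notMem _ _ _ hxP, piecewise_eq_of_notMem _ _ _ (hout x hx hxP), hkl x hx]
  refine ⟨⟨fun x hx => ?_, fun x hx y hy e => by rw [← hleft x hx, e, hleft y hy], fun z hz => ?_⟩,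
    fun x hx => ?_, (h '' P).piecewise k' k, fun z hz => ?_, hleft⟩
  · by_cases hxP : x ∈ P
    · rw [piecewise_eq_of_mem _ _ _ hxP]; exact hPL (hg.bij.mapsTo hxP)
    · rw [piecewise_eq_of_notMem _ _ _ hxP]; exact hh.bij.mapsTo hx
  · by_cases hzP : z ∈ h '' P
    · obtain ⟨h3, h4⟩ := hkr' z hzP
      exact ⟨k' z, hPO h3, by rw [piecewise_eq_of_mem _ _ _ h3, h4]⟩
    · obtain ⟨h3, h4⟩ := hkr z hz
      refine ⟨k z, h3, ?_⟩
      rw [piecewise_eq_of_notMem _ _ _ fun hp => hzP ⟨k z, hp, h4⟩, h4]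
  · by_cases hxP : x ∈ P
    · refine ContinuousAt.continuousWithinAt ?_
      refine (hg.cont.continuousAt (hP.mem_nhds hxP)).congr ?_
      filter_upwards [hP.mem_nhds hxP] with y hy using (piecewise_eq_of_mem _ _ _ hy).symm
    · rw [ContinuousWithinAt, piecewise_eq_of_notMem _ _ _ hxP, tendsto_iff_norm_sub_tendsto_zero]
      have h3 : Tendsto (fun y => 2 * ‖h y - h x‖) (𝓝[Om] x) (𝓝 0) := by
        have := (tendsto_iff_norm_sub_tendsto_zero.1 (hh.cont x hx)).const_mul 2
        rwa [mul_zero] at this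
      refine squeeze_zero (fun _ => norm_nonneg _) (fun y => ?_) h3
      by_cases hyP : y ∈ P
      · rw [piecewise_eq_of_mem _ _ _ hyP]
        have h4 := h2 y hyP (h x) (hout x hx hxP)
        have e : g y - h x = (g y - h y) + (h y - h x) := by abel
        rw [e]
        linarith [norm_add_le (g y - h y) (h y - h x), norm_nonneg (h y - h x)]
      · rw [piecewise_eq_of_notMem _ _ _ hyP]
        linarith [norm_nonneg (h y - h x)]
  · by_cases hzP : z ∈ h '' P
    · refine ContinuousAt.continuousWithinAt ?_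
      refine (hk'.continuousAt (hPo.mem_nhds hzP)).congr ?_
      filter_upwards [hPo.mem_nhds hzP] with y hy using (piecewise_eq_of_mem _ _ _ hy).symm
    · set θ : E → E := (h '' P).piecewise (fun w => h (k' w)) id with hθ
      have hθL : MapsTo θ La La := by
        intro w hw
        by_cases hwP : w ∈ h '' P
        · rw [hθ, piecewise_eq_of_mem _ _ _ hwP]; exact hh.bij.mapsTo (hPO (hkr' w hwP).1)
        · rw [hθ, piecewise_eq_of_notMem _ _ _ hwP]; exact hw
      have hθz : θ z = z := by rw [hθ, piecewise_eq_of_notMem _ _ _ hzP]; rfl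
      have hθc : ContinuousWithinAt θ La z := by
        rw [ContinuousWithinAt, hθz, tendsto_iff_norm_sub_tendsto_zero]
        have h3 : Tendsto (fun w => 2 * ‖w - z‖) (𝓝[La] z) (𝓝 0) := by
          have h4 : Tendsto (fun w : E => w) (𝓝[La] z) (𝓝 z) := tendsto_id'.2 nhdsWithin_le_nhds
          have := (tendsto_iff_norm_sub_tendsto_zero.1 h4).const_mul 2
          rwa [mul_zero] at this
        refine squeeze_zero (fun _ => norm_nonneg _) (fun w => ?_) h3
        by_cases hwP : w ∈ h '' P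
        · rw [hθ, piecewise_eq_of_mem _ _ _ hwP]
          obtain ⟨h4, h5⟩ := hkr' w hwP
          have h6 := h2 _ h4 z hzP
          rw [h5] at h6
          have e : h (k' w) - z = (w - z) - (w - h (k' w)) := by abel
          have h7 : ‖h (k' w) - z‖ ≤ ‖w - z‖ + ‖w - h (k' w)‖ := by
            conv_lhs => rw [e]
            exact norm_sub_le _ _
          linarith
        · rw [hθ, piecewise_eq_of_notMem _ _ _ hwP]
          simp only [id]
          linarith [norm_nonneg (w - z)]
      have h8 : ContinuousWithinAt (k ∘ θ) La z :=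
        ContinuousWithinAt.comp (by rw [hθz]; exact hk z hz) hθc hθL
      refine h8.congr (fun w _ => ?_) ?_
      · by_cases hwP : w ∈ h '' P
        · rw [piecewise_eq_of_mem _ _ _ hwP, Function.comp_apply, hθ,
            piecewise_eq_of_mem _ _ _ hwP, hkl _ (hPO (hkr' w hwP).1)]
        · rw [piecewise_eq_of_notMem _ _ _ hwP, Function.comp_apply, hθ,
            piecewise_eq_of_notMem _ _ _ hwP]; rfl
      · rw [piecewise_eq_of_notMem _ _ _ hzP, Function.comp_apply, hθz]

end Crest.Agent.X212.Smo49
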