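import Crest.Agent.X212.Smo49.App
import Crest.Agent.X212.Smo49.Hom
import Crest.Agent.R096.Mo7_119

/-!
Row 212, layer T, package SMO (helper49), part 3: a homeomorphism which is a local diffeomorphism on
`U` is made piecewise affine near a compact set, staying in the convex class on `U`.
-/

set_option autoImplicit false
set_option linter.style.longLine false
set_option linter.unusedSectionVars false

open Set Metric Filter Topology MeasureTheory
open scoped NNReal ContDiff Manifold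

namespace Crest.Agent.X212.Smo49

open Crest.Agent.R096.P5Spec_205 (HomeoOn MollAt)
open Crest.Agent.R096.Str_696 (LocPL)

variable {E : Type*} [NormedAddCommGroup E] [InnerProductSpace ℝ E] [MeasureSpace E]
  [BorelSpace E] [FiniteDimensional ℝ E] [(volume : Measure E).IsAddHaarMeasure]

/-- smooth with invertible derivative -/
def SmOn {E : Type*} [NormedAddCommGroup E] [NormedSpace ℝ E] (h : E → E) (U : Set E) : Prop :=
  ContDiffOn ℝ ∞ h U ∧ ∀ x ∈ U, (fderiv ℝ h x).det ≠ 0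

/-- the convex class up to sign -/
def SMoll (h : E → E) (x : E) : Prop := MollAt h x ∨ MollAt (fun y => -h y) x

theorem moll_ev {h : E → E} {x : E} (hx : MollAt h x) : ∀ᶠ y in 𝓝 x, MollAt h y :=
  R096.Mo_119.MollAt.eventually (μ := volume) hx

theorem moll_congr {h h' : E → E} {x : E} (hx : MollAt h x) (he : h' =ᶠ[𝓝 x] h) : MollAt h' x :=
  R096.Mo_119.MollAt.congr (μ := volume) hx he

theorem SMoll.congr {h h' : E → E} {x : E} (hx : SMoll h x) (he : h' =ᶠ[𝓝 x] h) : SMoll h' x := by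
  rcases hx with hx | hx
  · exact Or.inl (moll_congr hx he)
  · exact Or.inr (moll_congr hx (he.mono fun y hy => by simp only [hy]))

theorem det_neg (hfin : Module.finrank ℝ E = 3) (A : E →L[ℝ] E) : (-A).det = -A.det := by
  have e : ((-A : E →L[ℝ] E) : E →ₗ[ℝ] E) = (-1 : ℝ) • (A : E →ₗ[ℝ] E) := by ext v; simp
  unfold ContinuousLinearMap.det
  rw [e, LinearMap.det_smul, hfin]
  ring

theorem moll_not_both (hfin : Module.finrank ℝ E = 3) {h : E → E} {x : E} (h1 : MollAt h x)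
    (h2 : MollAt (fun y => -h y) x) : False := by
  obtain ⟨r, hr, K, -, -, hdet, -, hae⟩ := h1
  obtain ⟨r', hr', K', -, -, hdet', -, hae'⟩ := h2
  have h3 : ∀ᵐ y ∂(volume : Measure E), y ∉ ball x (min r r') := by
    filter_upwards [hae, hae'] with y hy hy' hb
    have h4 := hdet _ (hy (ball_subset_ball (min_le_left _ _) hb))
    have h5 := hdet' _ (hy' (ball_subset_ball (min_le_right _ _) hb))
    rw [fderiv_fun_neg, det_neg hfin] at h5
    linarith
  have h4 := measure_eq_zero_iff_ae_notMem.2 h3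
  exact (measure_ball_pos volume x (lt_min hr hr')).ne' h4

theorem moll_of_approx {f : E → E} {A : E →L[ℝ] E} {x : E} {r : ℝ} (hr : 0 < r) {c : ℝ≥0}
    (hf : ApproximatesLinearOn f A (ball x r) c) (hdet : ∀ B ∈ closedBall A (c : ℝ), 0 < B.det) :
    MollAt f x := by
  have : ProperSpace (E →L[ℝ] E) := FiniteDimensional.proper_real _
  have hL : LipschitzOnWith c (f - ⇑A) (ball x r) :=
    ApproximatesLinearOn.approximatesLinearOn_iff_lipschitzOnWith.1 hf
  have hL2 : LipschitzOnWith (‖A‖₊ + c) f (ball x r) := lipschitzOnWith_iff_restrict.2 hf.lipschitz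
  refine ⟨r, hr, closedBall A c, convex_closedBall _ _, isCompact_closedBall _ _, hdet, ⟨_, hL2⟩, ?_⟩
  filter_upwards [hL2.ae_differentiableWithinAt_of_mem (μ := volume)] with y hy hyx
  have hd := (hy hyx).differentiableAt (isOpen_ball.mem_nhds hyx)
  have h1 := norm_fderiv_le_of_lipschitzOn ℝ (isOpen_ball.mem_nhds hyx) hL
  rw [fderiv_sub hd A.differentiableAt, A.fderiv] at h1
  rwa [mem_closedBall, dist_eq_norm]

theorem exists_bump {C U : Set E} (hC : IsCompact C) (hU : IsOpen U) (hCU : C ⊆ U) :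
    ∃ (χ : E → ℝ) (K : Set E), ContDiff ℝ ∞ χ ∧ IsCompact K ∧ K ⊆ U ∧ (∀ x ∉ K, χ x = 0) ∧
      (∀ᶠ x in 𝓝ˢ C, χ x = 1) ∧ ∀ x, χ x ∈ Icc (0 : ℝ) 1 := by
  obtain ⟨K, hK, hCK, hKU⟩ := exists_compact_between hC hU hCU
  obtain ⟨f, f1, f0, f01⟩ := exists_contMDiffMap_one_nhds_of_subset_interior (n := ⊤) 𝓘(ℝ, E)
    hC.isClosed hCK
  exact ⟨f, K, contMDiff_iff_contDiff.1 f.contMDiff, hK, hKU, f0, f1, f01⟩

/-- uniform linear approximation -/
def Qp (h : E → E) (U : Set E) (a : E) (t : ℝ≥0) : Prop :=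
  ball a t ⊆ U ∧ ∃ (A : E ≃L[ℝ] E) (c : ℝ≥0), ApproximatesLinearOn h (A : E →L[ℝ] E) (ball a t) c ∧
    c + t < ‖(A.symm : E →L[ℝ] E)‖₊⁻¹ ∧
    ((∀ B ∈ closedBall (A : E →L[ℝ] E) ((c + t : ℝ≥0) : ℝ), 0 < B.det) ∨
      ∀ B ∈ closedBall (A : E →L[ℝ] E) ((c + t : ℝ≥0) : ℝ), B.det < 0)

theorem Qp.mono {h : E → E} {U : Set E} {a : E} {t s : ℝ≥0} (H : Qp h U a t) (hs : s ≤ t) :
    Qp h U a s := by
  obtain ⟨h1, A, c, h2, h3, h4⟩ := H
  have hb : ball a s ⊆ ball a t := ball_subset_ball (by exact_mod_cast hs)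
  have hb' : closedBall (A : E →L[ℝ] E) ((c + s : ℝ≥0) : ℝ) ⊆ closedBall (A : E →L[ℝ] E) ((c + t : ℝ≥0) : ℝ) :=
    closedBall_subset_closedBall (by exact_mod_cast add_le_add_right hs c)
  exact ⟨hb.trans h1, A, c, h2.mono_set hb, lt_of_le_of_lt (add_le_add_right hs c) h3,
    h4.imp (fun h B hB => h B (hb' hB)) fun h B hB => h B (hb' hB)⟩

theorem exists_Qp [Nontrivial E] {h : E → E} {U K : Set E} (hU : IsOpen U) (hs : SmOn h U)
    (hK : IsCompact K) (hKU : K ⊆ U) : ∃ t : ℝ≥0, 0 < t ∧ ∀ a ∈ K, Qp h U a t := by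
  have : CompleteSpace E := FiniteDimensional.complete ℝ E
  refine hK.induction_on (p := fun s => ∃ t : ℝ≥0, 0 < t ∧ ∀ a ∈ s, Qp h U a t)
    ⟨1, one_pos, fun a ha => ha.elim⟩ (fun s s' hss ⟨t, ht, H⟩ => ⟨t, ht, fun a ha => H a (hss ha)⟩)
    (fun s s' ⟨t, ht, H⟩ ⟨t', ht', H'⟩ => ⟨min t t', lt_min ht ht', fun a ha => ha.elim
      (fun h => (H a h).mono (min_le_left _ _)) fun h => (H' a h).mono (min_le_right _ _)⟩) ?_
  intro x hx
  have hxU := hKU hx
  have hcd : ContDiffAt ℝ ∞ h x := hs.1.contDiffAt (hU.mem_nhds hxU)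
  set A : E ≃L[ℝ] E := (fderiv ℝ h x).toContinuousLinearEquivOfDetNeZero (hs.2 x hxU) with hA
  have hAe : (A : E →L[ℝ] E) = fderiv ℝ h x := by ext v; rfl
  have hst : HasStrictFDerivAt h (A : E →L[ℝ] E) x := by
    rw [hAe]; exact hcd.hasStrictFDerivAt (by simp)
  have hN : 0 < ‖(A.symm : E →L[ℝ] E)‖₊⁻¹ := inv_pos.2 A.nnnorm_symm_pos
  have hsg : ∃ d : ℝ≥0, 0 < d ∧ ((∀ B ∈ closedBall (A : E →L[ℝ] E) (d : ℝ), 0 < B.det) ∨
      ∀ B ∈ closedBall (A : E →L[ℝ] E) (d : ℝ), B.det < 0) := by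
    rcases lt_or_gt_of_ne (hs.2 x hxU) with hlt | hlt
    · have hO : IsOpen {B : E →L[ℝ] E | B.det < 0} :=
        isOpen_lt ContinuousLinearMap.continuous_det continuous_const
      obtain ⟨d, hd, hdO⟩ := nhds_basis_closedBall.mem_iff.1 (hO.mem_nhds
        (show (A : E →L[ℝ] E) ∈ {B : E →L[ℝ] E | B.det < 0} by rw [hAe]; exact hlt))
      exact ⟨⟨d, hd.le⟩, hd, Or.inr fun B hB => hdO hB⟩
    · have hO : IsOpen {B : E →L[ℝ] E | 0 < B.det} :=
        isOpen_lt continuous_const ContinuousLinearMap.continuous_det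
      obtain ⟨d, hd, hdO⟩ := nhds_basis_closedBall.mem_iff.1 (hO.mem_nhds
        (show (A : E →L[ℝ] E) ∈ {B : E →L[ℝ] E | 0 < B.det} by rw [hAe]; exact hlt))
      exact ⟨⟨d, hd.le⟩, hd, Or.inl fun B hB => hdO hB⟩
  obtain ⟨d, hd, hdA⟩ := hsg
  set c : ℝ≥0 := min d ‖(A.symm : E →L[ℝ] E)‖₊⁻¹ / 4 with hc
  have hm0 : 0 < min d ‖(A.symm : E →L[ℝ] E)‖₊⁻¹ := lt_min hd hN
  have hc0 : 0 < c := by positivity
  obtain ⟨s, hsx, hap⟩ := hst.approximates_deriv_on_nhds (Or.inr hc0)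
  obtain ⟨r, hr, hrs⟩ := Metric.mem_nhds_iff.1 (inter_mem hsx (hU.mem_nhds hxU))
  set t : ℝ≥0 := min c ⟨r / 2, by positivity⟩ with ht
  have htc : t ≤ c := min_le_left _ _
  have htr : (t : ℝ) ≤ r / 2 := by
    have : t ≤ (⟨r / 2, by positivity⟩ : ℝ≥0) := min_le_right _ _
    exact_mod_cast this
  have hct : c + t < min d ‖(A.symm : E →L[ℝ] E)‖₊⁻¹ := by
    have h1 : c + t ≤ c + c := add_le_add_right htc c
    refine h1.trans_lt ?_
    rw [hc, ← NNReal.coe_lt_coe]
    have : (0 : ℝ) < ((min d ‖(A.symm : E →L[ℝ] E)‖₊⁻¹ : ℝ≥0) : ℝ) := hm0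
    simp only [NNReal.coe_add, NNReal.coe_div, NNReal.coe_ofNat]
    linarith
  refine ⟨ball x (r / 2), mem_nhdsWithin_of_mem_nhds (ball_mem_nhds x (half_pos hr)), t,
    lt_min hc0 (by exact half_pos hr), fun a ha => ?_⟩
  have hb : ball a t ⊆ ball x r := by
    refine ball_subset_ball' ?_
    rw [mem_ball] at ha
    linarith
  have hb' : closedBall (A : E →L[ℝ] E) ((c + t : ℝ≥0) : ℝ) ⊆ closedBall (A : E →L[ℝ] E) (d : ℝ) :=
    closedBall_subset_closedBall (by exact_mod_cast (hct.le.trans (min_le_left _ _)))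
  exact ⟨fun y hy => (hrs (hb hy)).2, A, c, hap.mono_set fun y hy => (hrs (hb hy)).1,
    hct.trans_le (min_le_right _ _),
    hdA.imp (fun h B hB => h B (hb' hB)) fun h B hB => h B (hb' hB)⟩

theorem SmOn.smoll (hfin : Module.finrank ℝ E = 3) {h : E → E} {U : Set E} (hU : IsOpen U)
    (hs : SmOn h U) {x : E} (hx : x ∈ U) : SMoll h x := by
  have hcd : ContDiffAt ℝ 1 h x := (hs.1.contDiffAt (hU.mem_nhds hx)).of_le (by simp)
  rcases lt_or_gt_of_ne (hs.2 x hx) with hlt | hlt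
  · refine Or.inr (R096.Mo_119.mollAt_of_contDiffAt (μ := volume) hcd.neg ?_)
    rw [fderiv_fun_neg, det_neg hfin]; linarith
  · exact Or.inl (R096.Mo_119.mollAt_of_contDiffAt (μ := volume) hcd hlt)

/-- small Lipschitz perturbations with compact support -/
theorem pert (hfin : Module.finrank ℝ E = 3) {h : E → E} {Om La U K : Set E} (hOm : IsOpen Om)
    (hLa : IsOpen La) (hh : HomeoOn h Om La) (hU : IsOpen U) (hUO : U ⊆ Om) (hs : SmOn h U)
    (hK : IsCompact K) (hKU : K ⊆ U) :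
    ∃ ε > 0, ∀ d : E → E, (∀ x ∉ K, d x = 0) → (∀ x, ‖d x‖ ≤ ε) →
      (∀ x y, ‖d x - d y‖ ≤ ε * ‖x - y‖) →
      HomeoOn (fun x => h x + d x) Om La ∧ ∀ x ∈ U, SMoll (fun x => h x + d x) x := by
  have : Nontrivial E := Module.nontrivial_of_finrank_pos (R := ℝ) (by omega)
  have : CompleteSpace E := FiniteDimensional.complete ℝ E
  obtain ⟨t, ht, hQ⟩ := exists_Qp hU hs hK hKU
  have ht' : (0 : ℝ) < t := ht
  obtain ⟨k, hk, hkl, hkr⟩ := inv_spec hh
  have hKO : K ⊆ Om := hKU.trans hUO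
  have hKi : IsCompact (h '' K) := hK.image_of_continuousOn (hh.cont.mono hKO)
  have hKL : h '' K ⊆ La := by rintro _ ⟨x, hx, rfl⟩; exact hh.bij.mapsTo (hKO hx)
  obtain ⟨s, hs0, hss⟩ := Metric.mem_uniformity_dist.1 (hKi.uniformContinuousAt_of_continuousAt k
    (fun a ha => hk.continuousAt (hLa.mem_nhds (hKL ha))) (Metric.dist_mem_uniformity ht'))
  obtain ⟨β, βc, β0, β1, βL⟩ := exists_beta hLa
  obtain ⟨b, hb0, hb⟩ : ∃ b > 0, ∀ z ∈ h '' K, b ≤ β z := by
    rcases (h '' K).eq_empty_or_nonempty with he | hne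
    · exact ⟨1, one_pos, by rw [he]; exact fun z hz => hz.elim⟩
    · obtain ⟨z, hz, hzm⟩ := hKi.exists_isMinOn hne βc.continuousOn
      exact ⟨β z, β0 z (hKL hz), fun w hw => hzm hw⟩
  refine ⟨min (min t (s / 4)) (min b 1), by positivity, fun d hd0 hd1 hd2 => ?_⟩
  have e1 : min (min (t : ℝ) (s / 4)) (min b 1) ≤ t := (min_le_left _ _).trans (min_le_left _ _)
  have e2 : min (min (t : ℝ) (s / 4)) (min b 1) ≤ s / 4 := (min_le_left _ _).trans (min_le_right _ _)
  have e3 : min (min (t : ℝ) (s / 4)) (min b 1) ≤ b := (min_le_right _ _).trans (min_le_left _ _)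
  have e4 : min (min (t : ℝ) (s / 4)) (min b 1) ≤ 1 := (min_le_right _ _).trans (min_le_right _ _)
  have hdt : ∀ x y, ‖d x - d y‖ ≤ t * ‖x - y‖ := fun x y =>
    (hd2 x y).trans (mul_le_mul_of_nonneg_right e1 (norm_nonneg _))
  have hdc : Continuous d := by
    refine (LipschitzWith.of_dist_le_mul (K := t) fun x y => ?_).continuous
    rw [dist_eq_norm, dist_eq_norm]; exact hdt x y
  have happ : ∀ {a : E} {A : E →L[ℝ] E} {c : ℝ≥0}, ApproximatesLinearOn h A (ball a t) c →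
      ApproximatesLinearOn (fun x => h x + d x) A (ball a t) (c + t) := by
    intro a A c H x hx y hy
    have e : h x + d x - (h y + d y) - A (x - y) = (h x - h y - A (x - y)) + (d x - d y) := by abel
    rw [e]
    refine (norm_add_le _ _).trans ?_
    rw [NNReal.coe_add, add_mul]
    exact add_le_add (H x hx y hy) (hdt x y)
  have hoff : ∀ x ∉ K, (fun x => h x + d x) =ᶠ[𝓝 x] h := by
    intro x hx
    filter_upwards [hK.isClosed.isOpen_compl.mem_nhds hx] with y hy
    rw [hd0 y hy, add_zero]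
  have hinj1 : ∀ a ∈ K, ∀ y ∈ Om, h a + d a = h y + d y → a = y := by
    intro a ha y hy e
    obtain ⟨-, A, c, h2, h3, -⟩ := hQ a ha
    refine (happ h2).injOn (Or.inr h3) (mem_ball_self ht') ?_ e
    have h4 : dist (h a) (h y) < s := by
      rw [dist_eq_norm]
      have e' : h a - h y = d y - d a := by rw [sub_eq_sub_iff_add_eq_add, e, add_comm]
      rw [e']
      linarith [norm_sub_le (d y) (d a), hd1 y, hd1 a]
    have h5 := hss h4 (mem_image_of_mem h ha)
    simp only [mem_ofPred_eq, hkl a (hKO ha), hkl y hy] at h5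
    rw [mem_ball, dist_comm]; exact h5
  refine ⟨homeo_of_close hOm hLa hh (hh.cont.add hdc.continuousOn) ?_ ?_ ?_ ?_, fun x hx => ?_⟩
  · intro x hx y hy e
    by_cases hxK : x ∈ K
    · exact hinj1 x hxK y hy e
    · by_cases hyK : y ∈ K
      · exact (hinj1 y hyK x hx e.symm).symm
      · simp only [hd0 x hxK, hd0 y hyK, add_zero] at e
        exact hh.bij.injOn hx hy e
  · intro x hx
    by_cases hxK : x ∈ K
    · obtain ⟨-, A, c, h2, h3, -⟩ := hQ x hxK
      exact ((happ h2).map_nhds_eq A.toNonlinearRightInverse (ball_mem_nhds x ht') (Or.inr h3)).ge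
    · rw [map_congr (hoff x hxK), hd0 x hxK, add_zero]
      intro N hN
      obtain ⟨N', hN', hNo, hxN⟩ := _root_.mem_nhds_iff.1 (inter_mem (mem_map.1 hN) (hOm.mem_nhds hx))
      refine mem_of_superset ((isOpen_image hLa hh hNo fun y hy => (hN' hy).2).mem_nhds
        (mem_image_of_mem h hxN)) ?_
      rintro _ ⟨y, hy, rfl⟩
      exact (hN' hy).1
  · intro x _
    rw [add_sub_cancel_left]; exact (hd1 x).trans e4
  · intro x _ y hy
    rw [add_sub_cancel_left]
    by_cases hxK : x ∈ K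
    · exact (hd1 x).trans (e3.trans ((hb _ (mem_image_of_mem h hxK)).trans (βL _ y hy)))
    · rw [hd0 x hxK, norm_zero]; positivity
  · by_cases hxK : x ∈ K
    · obtain ⟨-, A, c, h2, -, h4 | h4⟩ := hQ x hxK
      · exact Or.inl (moll_of_approx ht' (happ h2) h4)
      · refine Or.inr (moll_of_approx (A := -(A : E →L[ℝ] E)) (c := c + t) ht' ?_ fun B hB => ?_)
        · intro y hy z hz
          have := happ h2 y hy z hz
          rw [← norm_neg] at this
          refine le_of_eq_of_le ?_ this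
          congr 1
          simp only [neg_apply]
          abel
        · have h5 := h4 (-B) (by
            rw [mem_closedBall, dist_eq_norm] at hB ⊢
            rw [← norm_neg]
            refine le_of_eq_of_le ?_ hB
            congr 1; abel)
          rw [det_neg hfin] at h5
          linarith
    · exact (hs.smoll hfin hU hx).congr (hoff x hxK)

/-- **smooth ⟹ piecewise affine near a compact set** -/
theorem plize (hfin : Module.finrank ℝ E = 3) {h : E → E} {Om La U C : Set E} (hOm : IsOpen Om)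
    (hLa : IsOpen La) (hh : HomeoOn h Om La) (hU : IsOpen U) (hUO : U ⊆ Om) (hs : SmOn h U)
    (hC : IsCompact C) (hCU : C ⊆ U) :
    ∃ (h₁ : E → E) (K V : Set E), HomeoOn h₁ Om La ∧ IsCompact K ∧ K ⊆ U ∧ (∀ x ∉ K, h₁ x = h x) ∧
      (∀ x ∈ U, SMoll h₁ x) ∧ IsOpen V ∧ C ⊆ V ∧ LocPL h₁ V := by
  obtain ⟨χ, K, χs, hK, hKU, χ0, χ1, χ01⟩ := exists_bump hC hU hCU
  obtain ⟨ψ, K', ψs, hK', hK'U, ψ0, ψ1, -⟩ := exists_bump hK hU hKU
  obtain ⟨ε, hε, H⟩ := pert hfin hOm hLa hh hU hUO hs hK hKU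
  have χsupp : HasCompactSupport χ := HasCompactSupport.intro hK χ0
  obtain ⟨L, hL⟩ := χs.lipschitzWith_of_hasCompactSupport χsupp (by simp)
  set φ : E → E := fun x => ψ x • h x with hφ
  have φs : ContDiff ℝ 2 φ := by
    rw [contDiff_iff_contDiffAt]
    intro x
    by_cases hx : x ∈ U
    · exact ((ψs.contDiffAt.smul (hs.1.contDiffAt (hU.mem_nhds hx))).of_le (by norm_cast))
    · refine (contDiffAt_const (c := (0 : E))).congr_of_eventuallyEq ?_
      filter_upwards [hK'.isClosed.isOpen_compl.mem_nhds fun h' => hx (hK'U h')] with y hy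
      simp only [hφ, ψ0 y hy, zero_smul]
  have φsupp : HasCompactSupport φ :=
    HasCompactSupport.intro hK' fun x hx => by simp only [hφ, ψ0 x hx, zero_smul]
  have hL0 : (0 : ℝ) ≤ L := L.2
  have hε' : 0 < ε / (1 + L) := by positivity
  obtain ⟨g, gs, g0, g1⟩ := exists_sel φs φsupp hK hε'
  have hεε : ε / (1 + L) * (1 + L) = ε := by field_simp
  have hχL : ∀ x y, |χ x - χ y| ≤ L * ‖x - y‖ := fun x y => by
    have := hL.dist_le_mul x y
    rwa [Real.dist_eq, dist_eq_norm] at this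
  have hχ1 : ∀ x, |χ x| ≤ 1 := fun x => by rw [abs_of_nonneg (χ01 x).1]; exact (χ01 x).2
  have hone : ∀ x y, y ∉ K → ‖χ x • (g x - φ x) - χ y • (g y - φ y)‖ ≤ ε * ‖x - y‖ := by
    intro x y hy
    by_cases hx : x ∈ K
    · have h1 := hχL x y
      rw [χ0 y hy, sub_zero] at h1
      rw [χ0 y hy, zero_smul, sub_zero, norm_smul, Real.norm_eq_abs]
      calc |χ x| * ‖g x - φ x‖ ≤ (L * ‖x - y‖) * (ε / (1 + L)) :=
            mul_le_mul h1 (g0 x hx) (norm_nonneg _) (by positivity)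
        _ ≤ ((1 + L) * ‖x - y‖) * (ε / (1 + L)) := by gcongr; linarith
        _ = ε * ‖x - y‖ := by field_simp
    · rw [χ0 y hy, χ0 x hx, zero_smul, zero_smul, sub_zero, norm_zero]; positivity
  obtain ⟨H1, H2⟩ := H (fun x => χ x • (g x - φ x)) (fun x hx => by rw [χ0 x hx, zero_smul])
    (fun x => by
      by_cases hx : x ∈ K
      · rw [norm_smul, Real.norm_eq_abs]
        calc |χ x| * ‖g x - φ x‖ ≤ 1 * (ε / (1 + L)) :=
              mul_le_mul (hχ1 x) (g0 x hx) (norm_nonneg _) zero_le_one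
          _ ≤ (1 + L) * (ε / (1 + L)) := by gcongr; linarith
          _ = ε := by field_simp
      · rw [χ0 x hx, zero_smul, norm_zero]; exact hε.le)
    (fun x y => by
      by_cases hy : y ∈ K
      · by_cases hx : x ∈ K
        · have e : χ x • (g x - φ x) - χ y • (g y - φ y) =
              χ x • ((g x - φ x) - (g y - φ y)) + (χ x - χ y) • (g y - φ y) := by
            rw [smul_sub (χ x) (g x - φ x), sub_smul]; abel
          rw [e]
          refine (norm_add_le _ _).trans ?_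
          rw [norm_smul, norm_smul, Real.norm_eq_abs, Real.norm_eq_abs]
          have a1 : |χ x| * ‖(g x - φ x) - (g y - φ y)‖ ≤ 1 * (ε / (1 + L) * ‖x - y‖) :=
            mul_le_mul (hχ1 x) (g1 x hx y hy) (norm_nonneg _) zero_le_one
          have a2 : |χ x - χ y| * ‖g y - φ y‖ ≤ (L * ‖x - y‖) * (ε / (1 + L)) :=
            mul_le_mul (hχL x y) (g0 y hy) (norm_nonneg _) (by positivity)
          have a3 : 1 * (ε / (1 + L) * ‖x - y‖) + (L * ‖x - y‖) * (ε / (1 + L)) = ε * ‖x - y‖ := by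
            field_simp
          linarith
        · rw [norm_sub_rev, norm_sub_rev x y]; exact hone y x hx
      · exact hone x y hy)
  obtain ⟨V, hVo, hCV, hV⟩ := mem_nhdsSet_iff_exists.1 χ1
  refine ⟨fun x => h x + χ x • (g x - φ x), K, V, H1, hK, hKU,
    fun x hx => by simp only [χ0 x hx, zero_smul, add_zero], H2, hVo, hCV, fun x hx => ?_⟩
  obtain ⟨r, hr, hrV⟩ := Metric.isOpen_iff.1 hVo x hx
  have he : ∀ y ∈ ball x r, h y + χ y • (g y - φ y) = g y := by
    intro y hy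
    have h1 : χ y = 1 := hV (hrV hy)
    have h2 : y ∈ K := by
      by_contra hn
      rw [χ0 y hn] at h1
      exact zero_ne_one h1
    have h3 : ψ y = 1 := ψ1.self_of_nhdsSet y h2
    simp only [hφ, h1, h3, one_smul]
    abel
  obtain ⟨gc, S, hS⟩ := gs
  exact ⟨r, hr, S, gc.continuousOn.congr he, fun y hy => by
    obtain ⟨a, ha, e⟩ := hS y
    exact ⟨a, ha, (he y hy).trans e⟩⟩

end Crest.Agent.X212.Smo49
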