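import Crest.Agent.X212.Smo49.Pert
import Crest.Agent.R096.GermT_879
import Crest.Agent.R096.StE8_816
import Crest.Agent.R096.StV3_119

/-!
Row 212, layer T, package SMO (helper49), part 4: relative form of the edge and vertex stages of
row 96 (only the points outside the convex class are touched).
-/

set_option autoImplicit false
set_option linter.style.longLine false
set_option linter.unusedSectionVars false

open Set Metric Filter Topology MeasureTheory
open scoped NNReal ContDiff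

namespace Crest.Agent.X212.Smo49

open Crest.Agent.R096.P5Spec_205 (HomeoOn MollAt Germs EdgeB Core)
open Crest.Agent.R096.Str_696 (LocPL AffAt Sg)

variable {E : Type*} [NormedAddCommGroup E] [InnerProductSpace ℝ E] [MeasureSpace E]
  [BorelSpace E] [FiniteDimensional ℝ E] [(volume : Measure E).IsAddHaarMeasure]

theorem germ_moll {h : E → E} {Om V Z : Set E} {G : E → E → E} {e : E → E}
    (H : Germs h Om V Z G e) {p : E} (hp : p ∈ Om) : MollAt h p ↔ MollAt (G p) 0 := by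
  obtain ⟨r, hr, -, hv⟩ := H.germ p hp
  constructor
  · intro hm
    refine R096.Germ_879.MollAt.transport (c := -h p) hr hm fun v hv' => ?_
    rw [hv v hv', zero_add]; abel
  · intro hm
    refine R096.Germ_879.MollAt.transport (c := h p) hr hm fun v hv' => ?_
    rw [hv v hv', zero_add]

theorem germs_restrict {h : E → E} {Om V Z : Set E} {G : E → E → E} {e : E → E}
    (H : Germs h Om V Z G e) :
    Germs h Om (V ∩ {p | ¬ MollAt h p}) (Z ∩ {p | ¬ MollAt h p}) G e := by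
  have key : ∀ p ∈ Om, ∀ q ∈ Om, G p = G q → (MollAt h p ↔ MollAt h q) := fun p hp q hq e => by
    rw [germ_moll H hp, germ_moll H hq, e]
  have hb : ∀ {p v : E} {r : ℝ}, ball p r ⊆ Om → ‖v‖ < r → p + v ∈ Om := fun {p v r} h1 h2 =>
    h1 (by rwa [mem_ball, dist_eq_norm, add_sub_cancel_left])
  refine ⟨inter_subset_inter_left _ H.V_sub, inter_subset_left.trans H.Z_sub, H.germ, H.homeo,
    H.conic, H.pl, fun p hp hZ => ?_, fun p hp hV => H.edge p hp.1 fun h' => hV ⟨h', hp.2⟩,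
    fun p hp hV r hr h1 h2 v hv => ?_,
    fun p hp hV => H.edge_const p hp.1 fun h' => hV ⟨h', hp.2⟩,
    fun q hq r hr h1 h2 v hv0 hv => ?_⟩
  · by_contra hm
    exact hm (H.moll p hp fun h' => hZ ⟨h', hm⟩)
  · have hV' : p ∉ V := fun h' => hV ⟨h', hp.2⟩
    obtain ⟨h3, h4⟩ := H.edge_line p hp.1 hV' r hr h1 h2 v hv
    refine ⟨⟨fun h' => h3.1 h'.1, fun h' => ⟨h3.2 h', ?_⟩⟩, fun h' => h4 h'.1⟩
    obtain ⟨s, rfl⟩ := h'
    have hs : |s| < r := by
      rwa [norm_smul, (H.edge p hp.1 hV').unit, mul_one, Real.norm_eq_abs] at hv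
    have h5 := (H.edge_const p hp.1 hV' r hr h1 h2 s hs).1
    exact fun hm => hp.2 ((key _ (hb h1 hv) p (H.Z_sub hp.1) h5).1 hm)
  · obtain ⟨h3, h4⟩ := H.cone q hq r hr h1 h2 v hv0 hv
    refine ⟨fun h' => h3 h'.1, fun t ht0 ht1 => ?_⟩
    obtain ⟨h5, h6, h7⟩ := h4 t ht0 ht1
    have htv : ‖t • v‖ < r := by
      rw [norm_smul, Real.norm_of_nonneg ht0.le]
      exact (mul_le_of_le_one_left (norm_nonneg _) ht1).trans_lt hv
    have h8 := key _ (hb h1 htv) _ (hb h1 hv) h6
    refine ⟨?_, h6, h7⟩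
    simp only [mem_inter_iff, mem_ofPred_eq, h5, h8]

open Classical in
/-- the two stages, relative to a closed set `N` of good points; positive orientation -/
theorem stage_pos (hfin : Module.finrank ℝ E = 3) (hB : EdgeB E) (hC : Core E) {h : E → E}
    {Om La P N : Set E} (hLa : IsOpen La) (hh : HomeoOn h Om La) (hP : IsOpen P) (hPO : P ⊆ Om)
    (hPL : LocPL h P) (hdet : ∀ y ∈ P, ∀ A : E →L[ℝ] E, AffAt h y A → 0 < A.det)
    (hN : IsClosed N) (hNm : ∀ x ∈ N, x ∈ P → MollAt h x) :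
    ∃ g : E → E, HomeoOn g Om La ∧ (∀ x ∈ P, MollAt g x) ∧ (∀ x ∉ P, g x = h x) ∧
      ∀ x ∈ N, g x = h x := by
  have hPo : IsOpen (h '' P) := isOpen_image hLa hh hP hPO
  have hhP := restrict hh hPO
  obtain ⟨G0, -, -, hVd⟩ := R096.Germ_879.germs_of_locPL hfin hP hPo hhP hPL hdet
  have G1 := germs_restrict G0
  set Z : Set E := R096.Germ_879.ZSet h P ∩ {p | ¬ MollAt h p} with hZ
  set V : Set E := R096.Germ_879.VSet h P ∩ {p | ¬ MollAt h p} with hV
  have hZm : ∀ x, MollAt h x → ∃ r > 0, ∀ y ∈ ball x r, y ∉ Z := fun x hx => by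
    obtain ⟨r, hr, H⟩ := Metric.eventually_nhds_iff_ball.1 (moll_ev hx)
    exact ⟨r, hr, fun y hy hyZ => hyZ.2 (H y hy)⟩
  rcases Z.eq_empty_or_nonempty with he | hZne
  · exact ⟨h, hh, fun x hx => G1.moll x hx (by rw [he]; exact notMem_empty x), fun _ _ => rfl,
      fun _ _ => rfl⟩
  have hZpos : ∀ x, MollAt h x → 0 < infDist x Z := fun x hx => by
    obtain ⟨r, hr, H⟩ := hZm x hx
    refine hr.trans_le ((le_infDist hZne).2 fun y hy => ?_)
    by_contra hlt
    exact H y (by rw [mem_ball, dist_comm]; exact not_le.1 hlt) hy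
  obtain ⟨γ, γc, γ0, γN⟩ : ∃ γ : E → ℝ, Continuous γ ∧ (∀ x ∈ P, 0 < γ x) ∧
      ∀ x ∈ N, x ∈ P → γ x < infDist x Z := by
    rcases N.eq_empty_or_nonempty with he | hNne
    · exact ⟨fun _ => 1, continuous_const, fun _ _ => one_pos, by rw [he]; exact fun x hx => hx.elim⟩
    · refine ⟨fun x => (infDist x Z + infDist x N) / 2,
        ((continuous_infDist_pt _).add (continuous_infDist_pt _)).div_const 2, fun x hx => ?_,
        fun x hxN hx => ?_⟩
      · by_cases hxN : x ∈ N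
        · have := hZpos x (hNm x hxN hx)
          have := infDist_nonneg (x := x) (s := N)
          positivity
        · have := (hN.notMem_iff_infDist_pos hNne).1 hxN
          have := infDist_nonneg (x := x) (s := Z)
          positivity
      · have := hZpos x (hNm x hxN hx)
        simp only [infDist_zero_of_mem hxN]
        linarith
  obtain ⟨β, βc, β0, -, βL⟩ := exists_beta hPo
  set η : E → ℝ := fun x => min (β (h x) / 2) (γ x) with hη
  have ηc : ContinuousOn η P :=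
    ((βc.comp_continuousOn hhP.cont).div_const 2).inf γc.continuousOn
  have η0 : ∀ x ∈ P, 0 < η x := fun x hx =>
    lt_min (half_pos (β0 _ (mem_image_of_mem h hx))) (γ0 x hx)
  obtain ⟨C₁, K, -, H1⟩ := R096.StE_816.stageEdge hB hP hPo hhP G1 fun x hx hxZ =>
    hZm x (G1.moll x hx hxZ)
  obtain ⟨h₂, a1, a2, a3, a4, a5, a6, -⟩ := H1 η ηc η0
  obtain ⟨C₂, H2⟩ := R096.StV_119.stageVertex hC h₂ P (h '' P) V K hP hPo a1
    (G1.V_sub.trans G1.Z_sub) (fun x hx => by
      obtain ⟨r, hr, H⟩ := hVd x hx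
      exact ⟨r, hr, fun y hy => H ⟨hy.1, hy.2.1⟩⟩) a2 a3 a4
  obtain ⟨h₃, b1, b2, b3, b4⟩ := H2 η ηc η0
  refine ⟨P.piecewise h₃ h, homeo_glue hLa hh hP hPO b1 fun x hx y hy => ?_, fun x hx => ?_,
    fun x hx => piecewise_eq_of_notMem _ _ _ hx, fun x hxN => ?_⟩
  · have e : h₃ x - h x = (h₃ x - h₂ x) + (h₂ x - h x) := by abel
    have h3 : η x ≤ β (h x) / 2 := min_le_left _ _
    rw [e]
    linarith [norm_add_le (h₃ x - h₂ x) (h₂ x - h x), a5 x hx, b3 x hx, βL (h x) y hy]
  · refine moll_congr (b2 x hx) ?_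
    filter_upwards [hP.mem_nhds hx] with y hy using piecewise_eq_of_mem _ _ _ hy
  · by_cases hx : x ∈ P
    · rw [piecewise_eq_of_mem _ _ _ hx]
      have h3 : η x < infDist x Z := (min_le_right _ _).trans_lt (γN x hxN hx)
      have h4 : h₂ x = h x := by
        by_contra hne
        exact absurd (a6 x hx hne) (not_le.2 h3)
      rw [← h4]
      by_contra hne
      obtain ⟨v, hv, h5, -⟩ := b4 x hx hne
      have h6 := infDist_le_dist_of_mem (x := x) (G1.V_sub hv)
      rw [dist_eq_norm] at h6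
      linarith
    · exact piecewise_eq_of_notMem _ _ _ hx

theorem locPL_congr {h g : E → E} {P : Set E} (hP : IsOpen P) (hh : LocPL h P)
    (e : ∀ x ∈ P, g x = h x) : LocPL g P := by
  intro x hx
  obtain ⟨r, hr, S, hc, hS⟩ := hh x hx
  obtain ⟨s, hs, hsP⟩ := Metric.isOpen_iff.1 hP x hx
  have h1 : ball x (min r s) ⊆ ball x r := ball_subset_ball (min_le_left _ _)
  have h2 : ball x (min r s) ⊆ P := (ball_subset_ball (min_le_right _ _)).trans hsP
  exact ⟨min r s, lt_min hr hs, S, (hc.mono h1).congr fun y hy => e y (h2 hy), fun y hy => by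
    rw [e y (h2 hy)]; exact hS y (h1 hy)⟩

theorem locPL_neg {h : E → E} {P : Set E} (hh : LocPL h P) : LocPL (fun x => -h x) P := by
  classical
  intro x hx
  obtain ⟨r, hr, S, hc, hS⟩ := hh x hx
  refine ⟨r, hr, S.image fun a => -a, hc.neg, fun y hy => ?_⟩
  obtain ⟨a, ha, e⟩ := hS y hy
  exact ⟨-a, Finset.mem_image_of_mem _ ha, by simp [e]⟩

theorem affAt_neg {h : E → E} {x : E} {A : E →L[ℝ] E} (hA : AffAt h x A) :
    AffAt (fun x => -h x) x (-A) := by
  refine Filter.Eventually.mono hA fun y hy => ?_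
  simp only [hy, neg_apply]; abel

theorem affAt_congr {h g : E → E} {x : E} {A : E →L[ℝ] E} (hA : AffAt h x A) (e : g =ᶠ[𝓝 x] h) :
    AffAt g x A := by
  have e0 : g x = h x := e.self_of_nhds
  filter_upwards [hA, e] with y hy hy'
  rw [hy', e0]; exact hy

theorem moll_of_aff {h : E → E} {x : E} {A : E →L[ℝ] E} (hA : AffAt h x A) (hd : 0 < A.det) :
    MollAt h x := by
  have h1 : ContDiffAt ℝ 1 h x :=
    (show ContDiffAt ℝ 1 (fun y => h x + A (y - x)) x by fun_prop).congr_of_eventuallyEq hA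
  refine R096.Mo_119.mollAt_of_contDiffAt (μ := volume) h1 ?_
  rw [hA.hasFDerivAt.fderiv]; exact hd

theorem moll_of_pos (hfin : Module.finrank ℝ E = 3) {h : E → E} {P : Set E} (hPL : LocPL h P)
    {x : E} (hx : x ∈ P) (hs : ∀ᶠ y in 𝓝 x, ∀ A, AffAt h y A → 0 < A.det) (hm : SMoll h x) :
    MollAt h x := by
  refine hm.resolve_right fun hn => ?_
  obtain ⟨y, ⟨A, hA⟩, h1, h2⟩ := ((hPL.frequently_aff hx).and_eventually (hs.and (moll_ev hn))).exists
  exact moll_not_both hfin (moll_of_aff hA (h1 A hA)) h2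

/-- the two stages, relative to a closed set `N` of good points; any orientation -/
theorem stage (hfin : Module.finrank ℝ E = 3) (hB : EdgeB E) (hC : Core E) {h : E → E}
    {Om La P N : Set E} (hLa : IsOpen La) (hh : HomeoOn h Om La) (hP : IsOpen P) (hPO : P ⊆ Om)
    (hPL : LocPL h P) (hN : IsClosed N) (hNm : ∀ x ∈ N, x ∈ P → SMoll h x) :
    ∃ g : E → E, HomeoOn g Om La ∧ (∀ x ∈ P, SMoll g x) ∧ (∀ x ∉ P, g x = h x) ∧
      ∀ x ∈ N, g x = h x := by
  have hi : InjOn h P := hh.bij.injOn.mono hPO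
  have o1 : IsOpen (P ∩ Sg 1 h) := hP.inter (R096.Str_696.isOpen_Sg _ _)
  have o2 : IsOpen (P ∩ Sg (-1) h) := hP.inter (R096.Str_696.isOpen_Sg _ _)
  have d1 : ∀ y ∈ P ∩ Sg 1 h, ∀ A : E →L[ℝ] E, AffAt h y A → 0 < A.det := fun y hy A hA => by
    have := (show ∀ᶠ z in 𝓝 y, ∀ A, AffAt h z A → 0 < 1 * A.det from hy.2).self_of_nhds A hA
    linarith
  obtain ⟨g, g1, g2, g3, g4⟩ := stage_pos hfin hB hC hLa hh o1 (inter_subset_left.trans hPO)
    (fun x hx => hPL x hx.1) d1 hN fun x hxN hx => moll_of_pos hfin hPL hx.1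
      (by filter_upwards [o1.mem_nhds hx] with y hy using d1 y hy) (hNm x hxN hx.1)
  have e2 : ∀ x ∈ P ∩ Sg (-1) h, g x = h x := fun x hx => g3 x fun h' =>
    R096.Str_696.Sg_disj hPL hx.1 h'.2 hx.2
  have e2' : ∀ x ∈ P ∩ Sg (-1) h, g =ᶠ[𝓝 x] h := fun x hx => by
    filter_upwards [o2.mem_nhds hx] with y hy using e2 y hy
  have pl2 : LocPL (fun x => -g x) (P ∩ Sg (-1) h) :=
    locPL_neg (locPL_congr o2 (fun x hx => hPL x hx.1) e2)
  have d2 : ∀ y ∈ P ∩ Sg (-1) h, ∀ A : E →L[ℝ] E, AffAt (fun x => -g x) y A → 0 < A.det := by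
    intro y hy A hA
    have h1 : AffAt h y (-A) := by
      refine affAt_congr (affAt_neg hA) ?_
      filter_upwards [e2' y hy] with z hz
      rw [neg_neg, hz]
    have := (show ∀ᶠ z in 𝓝 y, ∀ A, AffAt h z A → 0 < (-1) * A.det from hy.2).self_of_nhds _ h1
    rw [det_neg hfin] at this
    linarith
  obtain ⟨f, f1, f2, f3, f4⟩ := stage_pos hfin hB hC hLa.neg (homeo_neg g1) o2
    (inter_subset_left.trans hPO) pl2 d2 hN fun x hxN hx => moll_of_pos hfin pl2 hx
      (by filter_upwards [o2.mem_nhds hx] with y hy using d2 y hy) (by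
        rcases (hNm x hxN hx.1).congr (e2' x hx) with h1 | h1
        · exact Or.inr (by simpa only [neg_neg] using h1)
        · exact Or.inl h1)
  refine ⟨fun x => -f x, homeo_neg' f1, fun x hx => ?_, fun x hx => ?_, fun x hx => ?_⟩
  · rcases R096.Str_696.mem_Sg hP hPL hi hx with h1 | h1
    · refine Or.inl (moll_congr (g2 x ⟨hx, h1⟩) ?_)
      filter_upwards [o1.mem_nhds ⟨hx, h1⟩] with y hy
      rw [f3 y fun h' => R096.Str_696.Sg_disj hPL hy.1 hy.2 h'.2, neg_neg]
    · exact Or.inr (by simpa only [neg_neg] using f2 x ⟨hx, h1⟩)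
  · show -f x = h x
    rw [f3 x fun h' => hx h'.1, neg_neg, g3 x fun h' => hx h'.1]
  · show -f x = h x
    rw [f4 x hx, neg_neg, g4 x hx]

end Crest.Agent.X212.Smo49
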